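import Vale.Agent.P286EP.Kos
import Vale.Agent.P286E99.DT

/-!
# Twisted differential modules supported at the branch points
-/

set_option linter.all false

namespace Vale.Agent.P286EP

open CategoryTheory Vale.Agent.P286EK Vale.Agent.P286E Vale.Agent.P286E99
open Vale.Agent.P286EX (XD)

noncomputable section

theorem b1_q {I : Type} [SmallCategory I] {D : CD I} (xd : XD D)
    (hf : ∀ i r, D.f i * r = 0 → r = 0) (L : Coc xd.vfd) :
    EQV (wc (b1 L xd.sm)) (wc (qb D xd.sm)) :=
  kos (-1) xd (neg_ne_zero.2 one_ne_zero) hf (base1 L xd.sm)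
    (fun i => P286EX.DO.op fun _ : Unit => xd.pd i) (fun _ => rfl) (fun _ => rfl)
    (fun _ => (P286EX.DO.pbw fun _ _ _ => rfl).1) (td1 L)
    (fun i => congrArg (c1 xd.vfd i) (neg_one_smul ℂ (D.f i)).symm) _ _

/-- **The odd part.** -/
theorem b1_v4 {E : Ell} (e : Rt E) (xd : XD (D1 e)) (L : Coc xd.vfd) :
    EQV (wc (b1 L xd.sm)) WD.v4 := (b1_q xd (f_reg e) L).trans (v4 e xd.sm)

end

end Vale.Agent.P286EP
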