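import Vale.Agent.P286EP.Kt2
import Vale.Agent.P286EP.Min
import Vale.Agent.P286E99.Dtb
import Vale.Agent.P286E48.Map
import Vale.Agent.P286EA2.End

/-!
# The two ends
-/

set_option linter.all false

namespace Vale.Agent.P286EP

open Vale.Agent.P286EK Vale.Agent.P286E Vale.Agent.P286E99 Vale.Agent.P286E48 Vale.Agent.P286EA2
  Vale.Agent.P286.H847

noncomputable section

theorem kash' {I : Type} [CategoryTheory.SmallCategory I] {D : CD I} (xd : P286EX.XD D) (lam : ℂ)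
    (k : ℤ) (c : ℂ) (h : c = k) :
    EQV (wc (bT (cq xd.vfd lam c) xd.sm)) (P286EU.um (xd.vfd.uk lam k)) := by
  subst h
  exact kash xd lam k

theorem plus_B0 : PLUS B0 := fun _ _ _ xd lam =>
  ⟨1, (dtb xd lam).trans (kash' xd lam 1 1 Int.cast_one.symm)⟩

theorem minus_C0 (e0 : ℂ) : MINUS (C0 e0) := fun _ e xd lam =>
  (dtc xd lam e0).trans (b1_v4 e xd _)

theorem minus_trans {W W' : WA} (g : WH W W') (h1 : g.φ.e = 1) (h : MorH g.φ) :
    MINUS W ↔ MINUS W' :=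
  ⟨fun H E e xd lam => (TW.eqv lam g xd h1 h).symm.trans (H E e xd lam),
    fun H E e xd lam => (TW.eqv lam g xd h1 h).trans (H E e xd lam)⟩

theorem plus_trans {W W' : WA} (g : WH W W') (h1 : g.φ.e = 1) (h : MorH g.φ) :
    PLUS W ↔ PLUS W' :=
  ⟨fun H I _ D xd lam => (H I D xd lam).imp fun _ H => (TW.eqv lam g xd h1 h).symm.trans H,
    fun H I _ D xd lam => (H I D xd lam).imp fun _ H => (TW.eqv lam g xd h1 h).trans H⟩

theorem minus_of {W : WA} {e0 : ℂ} (g : WH W (C0 e0)) (h1 : g.φ.f 1 = 1)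
    (h : GD.Qis g.φ.hom) : MINUS W :=
  (minus_trans g h1 (morH_of_qis _ h1 h)).2 (minus_C0 e0)

theorem minus_of' {W : WA} {e0 : ℂ} (g : WH (C0 e0) W) (h1 : g.φ.f 1 = 1)
    (h : GD.Qis g.φ.hom) : MINUS W :=
  (minus_trans g h1 (morH_of_qis _ h1 h)).1 (minus_C0 e0)

end

end Vale.Agent.P286EP
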