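import Vale.Agent.P286.H353.DGCat

/-!
# Products of DG categories
-/

namespace Vale.Agent.P286EP

open CategoryTheory Vale.Agent.P286.H353

noncomputable section

universe u v w u₁ v₁ u₂ v₂ u₃ v₃ u₄ v₄

/-- The product of a family of DG categories. -/
def pi {ι : Type} (C : ι → DGC.{u, v}) : DGC.{u, v} where
  Obj := ∀ i, (C i).Obj
  Hom X Y n := ∀ i, (C i).Hom (X i) (Y i) n
  one X i := (C i).one (X i)
  comp h f g i := (C i).comp h (f i) (g i)
  d m n f i := (C i).d m n (f i)
  one_comp f := funext fun i => (C i).one_comp (f i)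
  comp_one f := funext fun i => (C i).comp_one (f i)
  assoc f g h := funext fun i => (C i).assoc (f i) (g i) (h i)
  d_one X := funext fun i => (C i).d_one (X i)
  d_comp f g hf hg := funext fun i => (C i).d_comp (f i) (g i) (congrFun hf i) (congrFun hg i)

/-- The product of two DG categories. -/
def prod (C : DGC.{u₁, v₁}) (D : DGC.{u₂, v₂}) : DGC.{max u₁ u₂, max v₁ v₂} where
  Obj := C.Obj × D.Obj
  Hom X Y n := C.Hom X.1 Y.1 n × D.Hom X.2 Y.2 n
  one X := (C.one X.1, D.one X.2)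
  comp h f g := (C.comp h f.1 g.1, D.comp h f.2 g.2)
  d m n f := (C.d m n f.1, D.d m n f.2)
  one_comp f := Prod.ext (C.one_comp f.1) (D.one_comp f.2)
  comp_one f := Prod.ext (C.comp_one f.1) (D.comp_one f.2)
  assoc f g h := Prod.ext (C.assoc f.1 g.1 h.1) (D.assoc f.2 g.2 h.2)
  d_one X := Prod.ext (C.d_one X.1) (D.d_one X.2)
  d_comp f g hf hg := Prod.ext (C.d_comp f.1 g.1 (congrArg Prod.fst hf) (congrArg Prod.fst hg))
    (D.d_comp f.2 g.2 (congrArg Prod.snd hf) (congrArg Prod.snd hg))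

/-- There is a pair of DG functors which are inverse to each other up to zigzags. -/
def Eq2 (C : DGC.{u₁, v₁}) (W : MorphismProperty (Z0 C)) (D : DGC.{u₂, v₂})
    (W' : MorphismProperty (Z0 D)) : Prop :=
  ∃ (F : DGF C D) (G : DGF D C), Inv W W' F.z0 G.z0

/-- The class contains the identities. -/
def Ids {C : Type u} [Category.{v} C] (W : MorphismProperty C) : Prop := ∀ X, W (𝟙 X)

section Basic

variable {C : DGC.{u₁, v₁}} {D : DGC.{u₂, v₂}} {E : DGC.{u₃, v₃}} {W : MorphismProperty (Z0 C)}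
  {W' : MorphismProperty (Z0 D)} {W'' : MorphismProperty (Z0 E)}

theorem inv_trans {C : Type u₁} {D : Type u₂} {E : Type u₃} [Category.{v₁} C] [Category.{v₂} D]
    [Category.{v₃} E] {W : MorphismProperty C} {W' : MorphismProperty D} {W'' : MorphismProperty E}
    {F : C ⥤ D} {G : D ⥤ C} {F' : D ⥤ E} {G' : E ⥤ D} (h : Inv W W' F G) (h' : Inv W' W'' F' G') :
    Inv W W'' (F ⋙ F') (G' ⋙ G) :=
  ⟨fun _ _ u hu => h'.pF _ (h.pF u hu), fun _ _ u hu => h.pG _ (h'.pG u hu),
    Zig.trans (G := F ⋙ G) ((h'.un.left F).right G h.pG) h.un,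
    Zig.trans (G := G' ⋙ F') ((h.co.left G').right F' h'.pF) h'.co⟩

theorem Eq2.refl (C : DGC.{u₁, v₁}) (W : MorphismProperty (Z0 C)) : Eq2 C W C W :=
  ⟨.id C, .id C, fun _ _ _ h => h, fun _ _ _ h => h, .refl _, .refl _⟩

theorem Eq2.symm (h : Eq2 C W D W') : Eq2 D W' C W :=
  let ⟨F, G, h⟩ := h
  ⟨G, F, h.symm⟩

theorem Eq2.trans (h : Eq2 C W D W') (h' : Eq2 D W' E W'') : Eq2 C W E W'' :=
  let ⟨F, G, h⟩ := h
  let ⟨F', G', h'⟩ := h'
  ⟨F.comp F', G'.comp G, inv_trans h h'⟩

/-- Two DG functors which are strictly inverse to each other. -/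
theorem Eq2.of_eq (F : DGF C D) (G : DGF D C) (hF : Pres W W' F.z0) (hG : Pres W' W G.z0)
    (h : F.z0 ⋙ G.z0 = 𝟭 _) (h' : G.z0 ⋙ F.z0 = 𝟭 _) : Eq2 C W D W' :=
  ⟨F, G, hF, hG, h ▸ .refl _, h' ▸ .refl _⟩

end Basic

section Pi

variable {ι : Type} {C : ι → DGC.{u, v}} {D : ι → DGC.{u₁, v₁}} {E : DGC.{u₂, v₂}}

/-- The projection. -/
def ev (C : ι → DGC.{u, v}) (i : ι) : DGF (pi C) (C i) where
  obj X := X i
  map n := LinearMap.proj (R := ℂ) (φ := fun i => (C i).Hom _ _ n) i
  map_one _ := rfl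
  map_comp _ _ _ := rfl
  map_d _ _ _ := rfl

/-- The DG functor with the given components. -/
def piLift (F : ∀ i, DGF E (C i)) : DGF E (pi C) where
  obj X i := (F i).obj X
  map n := LinearMap.pi (R := ℂ) (φ := fun i => (C i).Hom _ _ n) fun i => (F i).map n
  map_one X := funext fun i => (F i).map_one X
  map_comp h α β := funext fun i => (F i).map_comp h α β
  map_d m n α := funext fun i => (F i).map_d m n α

/-- The product of DG functors. -/
def piMap (F : ∀ i, DGF (C i) (D i)) : DGF (pi C) (pi D) := piLift fun i => (ev C i).comp (F i)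

/-- The product class. -/
def piW (W : ∀ i, MorphismProperty (Z0 (C i))) : MorphismProperty (Z0 (pi C)) :=
  fun _ _ a => ∀ i, W i ((ev C i).z0.map a)

variable {A : Type u₃} [Category.{v₃} A] {W : ∀ i, MorphismProperty (Z0 (C i))}

/-- The functor with the given components. -/
def piF (F : ∀ i, A ⥤ Z0 (C i)) : A ⥤ Z0 (pi C) where
  obj X := zo (C := pi C) fun i => ob ((F i).obj X)
  map a := zmk (C := pi C) (fun i => zf ((F i).map a)) (funext fun i => zf_cl ((F i).map a))
  map_id X := z_ext (funext fun i => congrArg zf ((F i).map_id X))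
  map_comp a b := z_ext (funext fun i => congrArg zf ((F i).map_comp a b))

theorem natW_pi {F G : ∀ i, A ⥤ Z0 (C i)} (h : ∀ i, NatW (W i) (F i) (G i)) :
    NatW (piW W) (piF F) (piF G) := by
  choose η h using h
  exact ⟨⟨fun X => zmk (C := pi C) (fun i => zf ((η i).app X)) (funext fun i => zf_cl _),
    fun _ _ a => z_ext (funext fun i => congrArg zf ((η i).naturality a))⟩, fun X i => h i X⟩

theorem zig_upd [DecidableEq ι] (hW : ∀ i, Ids (W i)) (F : ∀ i, A ⥤ Z0 (C i)) (i : ι)
    {G G' : A ⥤ Z0 (C i)} (h : Zig (W i) G G') :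
    Zig (piW W) (piF (Function.update F i G)) (piF (Function.update F i G')) := by
  induction h with
  | rel G G' h =>
    refine (natW_pi fun j => ?_).zig
    by_cases k : j = i
    · subst k
      rwa [Function.update_self, Function.update_self]
    · rw [Function.update_of_ne k, Function.update_of_ne k]
      exact ⟨𝟙 _, fun X => hW j _⟩
  | refl G => exact .refl _
  | symm _ _ _ ih => exact ih.symm
  | trans _ _ _ _ _ ih ih' => exact ih.trans ih'

theorem zig_pi [Finite ι] (hW : ∀ i, Ids (W i)) {F G : ∀ i, A ⥤ Z0 (C i)}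
    (h : ∀ i, Zig (W i) (F i) (G i)) : Zig (piW W) (piF F) (piF G) := by
  classical
  have := Fintype.ofFinite ι
  have k : ∀ s : Finset ι, Zig (piW W) (piF F) (piF (s.piecewise G F)) := fun s => by
    induction s using Finset.induction_on with
    | empty => exact .refl _
    | insert i s hi ih =>
      have e := zig_upd hW (s.piecewise G F) i (h i)
      rw [Function.update_eq_self_iff.2 (s.piecewise_eq_of_notMem G F hi).symm,
        ← Finset.piecewise_insert] at e
      exact ih.trans e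
  simpa using k Finset.univ

theorem Eq2.pi [Finite ι] {W' : ∀ i, MorphismProperty (Z0 (D i))} (hW : ∀ i, Ids (W i))
    (hW' : ∀ i, Ids (W' i)) (h : ∀ i, Eq2 (C i) (W i) (D i) (W' i)) :
    Eq2 (pi C) (piW W) (pi D) (piW W') := by
  choose F G h using h
  exact ⟨piMap F, piMap G, fun _ _ a ha i => (h i).pF _ (ha i), fun _ _ a ha i => (h i).pG _ (ha i),
    zig_pi hW fun i => (h i).un.left (ev C i).z0, zig_pi hW' fun i => (h i).co.left (ev D i).z0⟩

theorem ids_pi (hW : ∀ i, Ids (W i)) : Ids (piW W) := fun X i =>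
  ((ev C i).z0.map_id X).symm ▸ hW i _

/-- Reindexing. -/
theorem Eq2.reindex {κ : Type} (e : κ ≃ ι) (C : DGC.{u, v}) (W : MorphismProperty (Z0 C)) :
    Eq2 (P286EP.pi fun _ : ι => C) (piW fun _ => W) (P286EP.pi fun _ : κ => C) (piW fun _ => W) := by
  refine .of_eq (piLift fun k => ev _ (e k)) (piLift fun i => ev _ (e.symm i))
    (fun _ _ a ha k => ha (e k)) (fun _ _ a ha i => ha (e.symm i)) ?_ ?_
  · exact congrArg (fun σ : ι → ι => (piLift fun i => ev (fun _ : ι => C) (σ i)).z0)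
      (funext e.apply_symm_apply : (fun i => e (e.symm i)) = fun i => i)
  · exact congrArg (fun σ : κ → κ => (piLift fun i => ev (fun _ : κ => C) (σ i)).z0)
      (funext e.symm_apply_apply : (fun i => e.symm (e i)) = fun i => i)

end Pi

section Prod

variable {C : DGC.{u₁, v₁}} {D : DGC.{u₂, v₂}} {C' : DGC.{u₃, v₃}} {D' : DGC.{u₄, v₄}}
  {E : DGC.{u, v}}

/-- The first projection. -/
def fst (C : DGC.{u₁, v₁}) (D : DGC.{u₂, v₂}) : DGF (prod C D) C where
  obj X := X.1
  map n := LinearMap.fst ℂ (C.Hom _ _ n) (D.Hom _ _ n)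
  map_one _ := rfl
  map_comp _ _ _ := rfl
  map_d _ _ _ := rfl

/-- The second projection. -/
def snd (C : DGC.{u₁, v₁}) (D : DGC.{u₂, v₂}) : DGF (prod C D) D where
  obj X := X.2
  map n := LinearMap.snd ℂ (C.Hom _ _ n) (D.Hom _ _ n)
  map_one _ := rfl
  map_comp _ _ _ := rfl
  map_d _ _ _ := rfl

/-- The DG functor with the given components. -/
def lift (F : DGF E C) (G : DGF E D) : DGF E (prod C D) where
  obj X := (F.obj X, G.obj X)
  map n := LinearMap.prod (F.map n) (G.map n)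
  map_one X := Prod.ext (F.map_one X) (G.map_one X)
  map_comp h α β := Prod.ext (F.map_comp h α β) (G.map_comp h α β)
  map_d m n α := Prod.ext (F.map_d m n α) (G.map_d m n α)

/-- The product of DG functors. -/
def map (F : DGF C C') (G : DGF D D') : DGF (prod C D) (prod C' D') :=
  lift ((fst C D).comp F) ((snd C D).comp G)

/-- The product class. -/
def prodW (W : MorphismProperty (Z0 C)) (V : MorphismProperty (Z0 D)) :
    MorphismProperty (Z0 (prod C D)) :=
  fun _ _ a => W ((fst C D).z0.map a) ∧ V ((snd C D).z0.map a)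

variable {A : Type u} [Category.{v} A] {W : MorphismProperty (Z0 C)} {V : MorphismProperty (Z0 D)}

/-- The functor with the given components. -/
def pair (F : A ⥤ Z0 C) (G : A ⥤ Z0 D) : A ⥤ Z0 (prod C D) where
  obj X := zo (C := prod C D) (ob (F.obj X), ob (G.obj X))
  map a := zmk (C := prod C D) (zf (F.map a), zf (G.map a)) (Prod.ext (zf_cl _) (zf_cl _))
  map_id X := z_ext (Prod.ext (congrArg zf (F.map_id X)) (congrArg zf (G.map_id X)))
  map_comp a b := z_ext (Prod.ext (congrArg zf (F.map_comp a b)) (congrArg zf (G.map_comp a b)))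

theorem natW_pair {F F' : A ⥤ Z0 C} {G G' : A ⥤ Z0 D} (h : NatW W F F') (h' : NatW V G G') :
    NatW (prodW W V) (pair F G) (pair F' G') := by
  obtain ⟨η, h⟩ := h
  obtain ⟨θ, h'⟩ := h'
  exact ⟨⟨fun X => zmk (C := prod C D) (zf (η.app X), zf (θ.app X)) (Prod.ext (zf_cl _) (zf_cl _)),
    fun _ _ a => z_ext (Prod.ext (congrArg zf (η.naturality a)) (congrArg zf (θ.naturality a)))⟩,
    fun X => ⟨h X, h' X⟩⟩

theorem zig_pair (hW : Ids W) (hV : Ids V) {F F' : A ⥤ Z0 C} {G G' : A ⥤ Z0 D} (h : Zig W F F')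
    (h' : Zig V G G') : Zig (prodW W V) (pair F G) (pair F' G') := by
  refine Zig.trans (G := pair F' G) ?_ ?_
  · induction h with
    | rel _ _ h => exact (natW_pair h ⟨𝟙 _, fun _ => hV _⟩).zig
    | refl _ => exact .refl _
    | symm _ _ _ ih => exact ih.symm
    | trans _ _ _ _ _ ih ih' => exact ih.trans ih'
  · induction h' with
    | rel _ _ h => exact (natW_pair ⟨𝟙 _, fun _ => hW _⟩ h).zig
    | refl _ => exact .refl _
    | symm _ _ _ ih => exact ih.symm
    | trans _ _ _ _ _ ih ih' => exact ih.trans ih'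

theorem Eq2.prod {W' : MorphismProperty (Z0 C')} {V' : MorphismProperty (Z0 D')} (hW : Ids W)
    (hV : Ids V) (hW' : Ids W') (hV' : Ids V') (h : Eq2 C W C' W') (h' : Eq2 D V D' V') :
    Eq2 (prod C D) (prodW W V) (prod C' D') (prodW W' V') := by
  obtain ⟨F, G, h⟩ := h
  obtain ⟨F', G', h'⟩ := h'
  exact ⟨map F F', map G G', fun _ _ a ha => ⟨h.pF _ ha.1, h'.pF _ ha.2⟩,
    fun _ _ a ha => ⟨h.pG _ ha.1, h'.pG _ ha.2⟩,
    zig_pair hW hV (h.un.left (fst C D).z0) (h'.un.left (snd C D).z0),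
    zig_pair hW' hV' (h.co.left (fst C' D').z0) (h'.co.left (snd C' D').z0)⟩

theorem ids_prod (hW : Ids W) (hV : Ids V) : Ids (prodW W V) := fun X =>
  ⟨((fst C D).z0.map_id X).symm ▸ hW _, ((snd C D).z0.map_id X).symm ▸ hV _⟩

theorem Eq2.swap : Eq2 (P286EP.prod C D) (prodW W V) (P286EP.prod D C) (prodW V W) :=
  .of_eq (lift (snd C D) (fst C D)) (lift (snd D C) (fst D C)) (fun _ _ _ h => h.symm)
    (fun _ _ _ h => h.symm) rfl rfl

end Prod

end

end Vale.Agent.P286EP
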