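import Vale.Agent.P286EP.Retw
import Vale.Agent.P286EO.Defs
import Vale.Agent.P286EJ.Defs

/-!
# The standard test categories satisfy the axioms of a site
-/

set_option linter.all false

namespace Vale.Agent.P286EP

open CategoryTheory Vale.Agent.P286 Vale.Agent.P286.St Vale.Agent.P286E Vale.Agent.P286EO
open Vale.Agent.P286ER (Good)

noncomputable section

variable {T : TSite}

theorem good_GS (h : Good T) (a b : ∀ X : T.C, T.R X) : Good (GS T a b) :=
  ⟨fun P => h.f_id P.X, fun u v => h.f_comp (GM.φ u) (GM.φ v), fun u => h.unit (GM.φ u),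
    fun u v => h.dl_comp (GM.φ u) (GM.φ v)⟩

theorem good_Sub (h : Good T) (U : T.C → Prop) : Good (Sub T U) :=
  ⟨fun P => h.f_id P.X, fun {P Q R} u v => h.f_comp (X := P.X) (Y := Q.X) (Z := R.X) u v,
    fun {P Q} u => h.unit (X := P.X) (Y := Q.X) u,
    fun {P Q R} u v => h.dl_comp (X := P.X) (Y := Q.X) (Z := R.X) u v⟩

theorem good_Opn (h : Good T) (θ : ∀ X : T.C, T.R X) : Good (Opn T θ) := good_Sub h _

theorem good_sub (h : Good T) (U : T.C → Prop) : Good (P286EJ.sub T U) :=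
  ⟨fun P => h.f_id P.1, fun {P Q R} u v => h.f_comp (X := P.1) (Y := Q.1) (Z := R.1) u v,
    fun {P Q} u => h.unit (X := P.1) (Y := Q.1) u,
    fun {P Q R} u v => h.dl_comp (X := P.1) (Y := Q.1) (Z := R.1) u v⟩

theorem good_BK (K : Type) [Group K] (s : ℂ) : Good (P286EJ.BK K s) :=
  ⟨fun _ => rfl, fun _ _ => rfl, fun _ => isUnit_one,
    fun {_ Y Z} _ v => by
      change (1 : (P286EJ.BK K s).R Z) = 1 * (P286EJ.BK K s).f v 1
      rw [map_one, one_mul]⟩

theorem good_QS {I : Type} [SmallCategory I] (D : CD I) (G : Grp) (s : ℂ) : Good (QS D G s) :=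
  ⟨fun _ => rfl, fun _ _ => rfl, fun {_ Y} u => (D.r_unit (QM.α u)).map Y.x,
    fun {_ Y Z} u v => by
      change Z.x (D.r (QM.α u ≫ QM.α v)) = Z.x (D.r (QM.α v)) * QM.φ v (Y.x (D.r (QM.α u)))
      rw [D.r_comp, map_mul, QM.hx v, mul_comm]⟩

/-- Full subcategories defined by equivalent properties. -/
theorem eqv_Sub_sub (h : Good T) (hc : ∀ X, T.cen X = ∅) {U V : T.C → Prop}
    (e : ∀ X, U X ↔ V X) : EQV (WD.st (Sub T U)) (WD.st (P286EJ.sub T V)) :=
  EqF.eqv_one (S := Sub T U) (T := P286EJ.sub T V)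
    { ob := fun X => ⟨X.1, (e _).2 X.2⟩
      map := fun φ => φ
      map_id := fun _ => rfl
      map_comp := fun _ _ => rfl
      full := fun _ _ ψ => ⟨ψ, rfl⟩
      faith := fun _ _ _ _ h => h
      ess := fun Z => ⟨⟨Z.X, (e _).1 Z.h⟩, 𝟙 Z, 𝟙 Z, Category.id_comp _, Category.id_comp _⟩
      i := fun _ => AlgEquiv.refl
      nat := fun _ _ => rfl } (good_Sub h U) (good_sub h V) (fun Z => hc Z.X) (fun X => hc X.1) 1
    ((one_mul _).symm.trans (congrArg (· * T.s) Nat.cast_one.symm)) fun X Y φ =>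
      ⟨1, by rw [map_one, one_mul, pow_one]; rfl⟩

/-- Full subcategories defined by equivalent properties. -/
theorem eqv_Sub (h : Good T) (hc : ∀ X, T.cen X = ∅) {U V : T.C → Prop} (e : ∀ X, U X ↔ V X) :
    EQV (WD.st (Sub T U)) (WD.st (Sub T V)) :=
  (eqv_Sub_sub h hc e).trans (eqv_Sub_sub h hc fun _ => Iff.rfl).symm

end

end Vale.Agent.P286EP
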