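import Vale.Agent.P286EP.Qp2
import Vale.Agent.P286ER.Fn
import Vale.Agent.P286EJ.Ga
import Vale.Agent.P286E67.Disj
import Vale.Agent.P286EB.Crd
import Vale.Agent.P286EF.Pl

/-!
# The geometric statements
-/

set_option linter.all false

namespace Vale.Agent.P286EP

open Vale.Agent.P286 Vale.Agent.P286E Vale.Agent.P286EB Vale.Agent.P286EO
open Vale.Agent.P286ER (fa fb fc bas bas_adm bas_range)

/-- The test objects of the charts and the points of the charts. -/
def CATG : Prop := ∀ (E : Ell) (e : Rt E) (G : Grp), G = SL2 ∨ G = SO3 → ∀ c s' : ℂ,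
  s' = (if G.N = 2 then 4 else 1) * ((2 - c) / (2 * 2)) →
  EQV (WD.st (GS (DE E G c) fa fb)) (WD.st (QP e G s'))

/-- **The geometry for `SL_2`.** -/
theorem geo1 (hO : OPEN2) (hC : CATG) : GEO1 := fun E e c hc =>
  ((P286ER.open_sl2 hO hc).trans (hC E e SL2 (Or.inl rfl) c (2 - c) (by
    rw [if_pos (show SL2.N = 2 from rfl)]
    ring))).trans (qp2 E e _)

/-- **The geometry for `SO_3`.** -/
theorem geo2 (hO : OPEN3) (hC : CATG) (h3 : QP3) (hB : P286EJ.BKV) : GEO2 := fun E e c hc =>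
  (P286ER.open_so3 hO (P286E67.disj crd pl) hc).trans
    (((hC E e SO3 (Or.inr rfl) c ((2 - c) / 4) (by
      rw [if_neg (show ¬ SO3.N = 2 by decide)]
      ring)).trans (h3 E e _)).prod
      (P286EJ.odd_opn hB E c _ fun X => ⟨bas X, bas_adm X, bas_range X, rfl⟩))

end Vale.Agent.P286EP
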