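import Vale.Agent.P286EH.Push
import Vale.Agent.P286ER.IF

/-!
# The inverse of an etale functor which is an equivalence
-/

set_option linter.all false

namespace Vale.Agent.P286EP

open CategoryTheory Vale.Agent.P286 Vale.Agent.P286.St Vale.Agent.P286.H847
  Vale.Agent.P286.H353 Vale.Agent.P286EH
open Vale.Agent.P286ER (Good)

noncomputable section

section Dl

variable {A B : Type} [CommRing A] [Algebra ℂ A] [CommRing B] [Algebra ℂ B]

/-- The logarithmic derivative. -/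
def dlg (w : Derivation ℂ A A) (u : A) : A := Ring.inverse u * w u

theorem mul_dlg (w : Derivation ℂ A A) {u : A} (hu : IsUnit u) : u * dlg w u = w u := by
  rw [dlg, ← mul_assoc, Ring.mul_inverse_cancel u hu, one_mul]

theorem dlg_eq (w : Derivation ℂ A A) {u z : A} (hu : IsUnit u) (h : u * z = w u) :
    dlg w u = z := hu.mul_left_cancel ((mul_dlg w hu).trans h.symm)

theorem dlg_mul (w : Derivation ℂ A A) {u v : A} (hu : IsUnit u) (hv : IsUnit v) :
    dlg w (u * v) = dlg w u + dlg w v := dlg_eq w (hu.mul hv) (by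
  rw [Derivation.leibniz, smul_eq_mul, smul_eq_mul, ← mul_dlg w hu, ← mul_dlg w hv]
  ring)

theorem dlg_const (w : Derivation ℂ A A) {u : A} (h : w u = 0) : dlg w u = 0 := by
  rw [dlg, h, mul_zero]

theorem dlg_one (w : Derivation ℂ A A) : dlg w 1 = 0 := dlg_const w w.map_one_eq_zero

theorem dlg_pow (w : Derivation ℂ A A) {u : A} (hu : IsUnit u) (n : ℕ) :
    dlg w (u ^ n) = (n : ℂ) • dlg w u := by
  induction n with
  | zero => rw [pow_zero, dlg_one, Nat.cast_zero, zero_smul]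
  | succ n ih => rw [pow_succ, dlg_mul w (hu.pow n) hu, ih, Nat.cast_succ, add_smul, one_smul]

theorem dlg_add (v w : Derivation ℂ A A) (u : A) : dlg (v + w) u = dlg v u + dlg w u := by
  rw [dlg, Derivation.add_apply, mul_add]
  rfl

theorem dlg_smul (a : A) (v : Derivation ℂ A A) (u : A) : dlg (a • v) u = a * dlg v u := by
  rw [dlg, Derivation.smul_apply, smul_eq_mul, mul_left_comm]
  rfl

theorem dlg_lie (v w : Derivation ℂ A A) {u : A} (hu : IsUnit u) :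
    dlg ⁅v, w⁆ u = v (dlg w u) - w (dlg v u) := dlg_eq _ hu (by
  have h1 := congrArg v (mul_dlg w hu)
  have h2 := congrArg w (mul_dlg v hu)
  rw [Derivation.leibniz, smul_eq_mul, smul_eq_mul] at h1 h2
  rw [Derivation.commutator_apply, ← h1, ← h2, ← mul_dlg v hu, ← mul_dlg w hu]
  ring)

theorem dlg_rel (f : A →ₐ[ℂ] B) (w : Derivation ℂ B B) {k : ℕ} (c : Fin k → B)
    (v : Fin k → Derivation ℂ A A) {u : A} (hu : IsUnit u)
    (h : w (f u) = ∑ j, c j * f (v j u)) : dlg w (f u) = ∑ j, c j * f (dlg (v j) u) :=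
  dlg_eq w (hu.map f) (by
    rw [h, Finset.mul_sum]
    refine Finset.sum_congr rfl fun j _ => ?_
    rw [mul_left_comm, ← map_mul, mul_dlg _ hu])

theorem dlg_map (f : A →ₐ[ℂ] B) (w : Derivation ℂ B B) (v : Derivation ℂ A A) {u : A}
    (hu : IsUnit u) (h : w (f u) = f (v u)) : dlg w (f u) = f (dlg v u) :=
  dlg_eq w (hu.map f) (by rw [h, ← map_mul, mul_dlg _ hu])

/-- The transition rule of a gauge form, in logarithmic form. -/
theorem btr_iff (w : Derivation ℂ A A) {p q z : A} (hp : IsUnit p) (hq : IsUnit q) (s t : ℂ) :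
    p * q * z = s • (p * w q) - t • (q * w p) ↔ z = s • dlg w q - t • dlg w p := by
  have h : s • (p * w q) - t • (q * w p) = p * q * (s • dlg w q - t • dlg w p) := by
    rw [← mul_dlg w hp, ← mul_dlg w hq, mul_sub, mul_smul_comm, mul_smul_comm, mul_assoc,
      mul_comm p q, mul_assoc q]
  rw [h]
  exact (hp.mul hq).mul_right_inj

/-- The transport of a vector field along an isomorphism. -/
def cj (e : A ≃ₐ[ℂ] B) (v : Derivation ℂ A A) : Derivation ℂ B B := Derivation.mk'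
  (e.toLinearMap ∘ₗ v.toLinearMap ∘ₗ e.symm.toLinearMap) fun x y => by
    change e (v (e.symm (x * y))) = x * e (v (e.symm y)) + y * e (v (e.symm x))
    rw [map_mul, Derivation.leibniz, smul_eq_mul, smul_eq_mul, map_add, map_mul, map_mul,
      e.apply_symm_apply, e.apply_symm_apply]

theorem cj_e (e : A ≃ₐ[ℂ] B) (v : Derivation ℂ A A) (a : A) : cj e v (e a) = e (v a) :=
  congrArg (fun x => e (v x)) (e.symm_apply_apply a)

end Dl

variable {S T : TSite}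

theorem Good.bij (h : Good S) {X Y : S.C} {α : X ⟶ Y} {β : Y ⟶ X} (h1 : α ≫ β = 𝟙 X)
    (h2 : β ≫ α = 𝟙 Y) : Function.Bijective (S.f α) := by
  have e1 : ∀ a, S.f β (S.f α a) = a := fun a =>
    (AlgHom.congr_fun (h.f_comp α β) a).symm.trans (by rw [h1, h.f_id]; rfl)
  have e2 : ∀ a, S.f α (S.f β a) = a := fun a =>
    (AlgHom.congr_fun (h.f_comp β α) a).symm.trans (by rw [h2, h.f_id]; rfl)
  exact ⟨Function.LeftInverse.injective e1, Function.RightInverse.surjective e2⟩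

theorem btr (E : EtF S T) {X Y : T.C} (φ : X ⟶ Y) (hu : IsUnit (T.dl φ)) (w : (T.A Y).Der) {k : ℕ}
    (c : Fin k → T.R Y) (v : Fin k → (T.A X).Der)
    (h : ∀ a, w (T.f φ a) = ∑ j, c j * T.f φ (v j a)) :
    E.b Y w - ∑ j, E.i Y (c j) * S.f (E.map φ) (E.b X (v j)) =
      S.s • dlg (E.lf Y w) (S.dl (E.map φ)) - T.s • dlg (E.lf Y w) (E.i Y (T.dl φ)) := by
  refine (btr_iff (E.lf Y w) (hu.map (E.i Y)) (E.unit φ) _ _).1 ?_
  rw [E.lf_i]
  exact E.b_tr φ w k c v h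

/-- The functor is an equivalence and the algebras do not change. -/
structure IsEqv (E : EtF S T) : Prop where
  bij : ∀ X, Function.Bijective (E.i X)
  map_id : ∀ X, E.map (𝟙 X) = 𝟙 (E.ob X)
  map_comp : ∀ {X Y Z : T.C} (φ : X ⟶ Y) (ψ : Y ⟶ Z), E.map (φ ≫ ψ) = E.map φ ≫ E.map ψ
  full : ∀ (X Y : T.C) (ψ : E.ob X ⟶ E.ob Y), ∃ φ : X ⟶ Y, E.map φ = ψ
  faith : ∀ (X Y : T.C) (φ φ' : X ⟶ Y), E.map φ = E.map φ' → Sim φ φ'
  ess : ∀ Z : S.C, ∃ (X : T.C) (α : E.ob X ⟶ Z) (β : Z ⟶ E.ob X), α ≫ β = 𝟙 _ ∧ β ≫ α = 𝟙 _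
  cen : ∀ Z : S.C, S.cen Z = ∅
  gS : Good S
  gT : Good T

namespace IsEqv

variable {E : EtF S T} (H : IsEqv E)

/-- The inverse on objects. -/
def ob (Z : S.C) : T.C := (H.ess Z).choose

/-- The counit. -/
def al (Z : S.C) : E.ob (H.ob Z) ⟶ Z := (H.ess Z).choose_spec.choose

/-- The inverse of the counit. -/
def be (Z : S.C) : Z ⟶ E.ob (H.ob Z) := (H.ess Z).choose_spec.choose_spec.choose

theorem al_be (Z : S.C) : H.al Z ≫ H.be Z = 𝟙 _ := (H.ess Z).choose_spec.choose_spec.choose_spec.1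

theorem be_al (Z : S.C) : H.be Z ≫ H.al Z = 𝟙 _ := (H.ess Z).choose_spec.choose_spec.choose_spec.2

/-- A preimage. -/
def pre {X Y : T.C} (ψ : E.ob X ⟶ E.ob Y) : X ⟶ Y := (H.full X Y ψ).choose

theorem map_pre {X Y : T.C} (ψ : E.ob X ⟶ E.ob Y) : E.map (H.pre ψ) = ψ :=
  (H.full X Y ψ).choose_spec

/-- The inverse on morphisms. -/
def map {Z Z' : S.C} (ψ : Z ⟶ Z') : H.ob Z ⟶ H.ob Z' := H.pre (H.al Z ≫ ψ ≫ H.be Z')

theorem map_map {Z Z' : S.C} (ψ : Z ⟶ Z') : E.map (H.map ψ) = H.al Z ≫ ψ ≫ H.be Z' :=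
  H.map_pre _

theorem be_map {Z Z' : S.C} (ψ : Z ⟶ Z') : H.be Z ≫ E.map (H.map ψ) = ψ ≫ H.be Z' := by
  rw [map_map, ← Category.assoc, be_al, Category.id_comp]

/-- The isomorphism of the algebras. -/
def ie (X : T.C) : T.R X ≃ₐ[ℂ] S.R (E.ob X) := AlgEquiv.ofBijective (E.i X) (H.bij X)

theorem i_ie (X : T.C) (y : S.R (E.ob X)) : E.i X ((H.ie X).symm y) = y :=
  (H.ie X).apply_symm_apply y

theorem bij_be (Z : S.C) : Function.Bijective (S.f (H.be Z)) :=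
  Good.bij H.gS (H.be_al Z) (H.al_be Z)

/-- The isomorphism of the algebras for the inverse. -/
def je (Z : S.C) : S.R Z ≃ₐ[ℂ] T.R (H.ob Z) :=
  (AlgEquiv.ofBijective (S.f (H.be Z)) (H.bij_be Z)).trans (H.ie _).symm

theorem i_je (Z : S.C) (a : S.R Z) : E.i _ (H.je Z a) = S.f (H.be Z) a := H.i_ie _ _

/-- The transport of vector fields along `be`. -/
def W (Z : S.C) (v : (S.A Z).Der) : (S.A (E.ob (H.ob Z))).Der := E.lf _ (cj (H.je Z) v)

theorem W_be (Z : S.C) (v : (S.A Z).Der) (a : S.R Z) :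
    H.W Z v (S.f (H.be Z) a) = S.f (H.be Z) (v a) := by
  rw [W, ← i_je, E.lf_i, cj_e, i_je]

/-- The gauge form of the inverse. -/
def b (Z : S.C) (v : (S.A Z).Der) : T.R (H.ob Z) :=
  (H.ie _).symm (S.s • dlg (H.W Z v) (S.dl (H.be Z)) - E.b _ (cj (H.je Z) v))

theorem i_b (Z : S.C) (v : (S.A Z).Der) : E.i _ (H.b Z v) =
    S.s • dlg (H.W Z v) (S.dl (H.be Z)) - E.b _ (cj (H.je Z) v) := H.i_ie _ _

theorem unr (Z : S.C) : Unr (H.je Z : S.R Z →ₐ[ℂ] T.R (H.ob Z)) := unr_of_surj (H.je Z).surjective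

theorem je_nat {Z Z' : S.C} (ψ : Z ⟶ Z') (a : S.R Z) :
    T.f (H.map ψ) (H.je Z a) = H.je Z' (S.f ψ a) := (H.bij _).1 (by
  rw [← E.nat, i_je, i_je]
  exact (AlgHom.congr_fun (H.gS.f_comp _ _) a).symm.trans
    ((congrArg (fun φ => S.f φ a) (H.be_map ψ)).trans (AlgHom.congr_fun (H.gS.f_comp _ _) a)))

theorem cj_add (Z : S.C) (v w : (S.A Z).Der) :
    cj (H.je Z) (v + w) = cj (H.je Z) v + cj (H.je Z) w :=
  (H.unr Z).ext fun a => by
    change cj (H.je Z) (v + w) (H.je Z a) = cj (H.je Z) v (H.je Z a) + cj (H.je Z) w (H.je Z a)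
    rw [cj_e, cj_e, cj_e, Derivation.add_apply, map_add]

theorem cj_smul (Z : S.C) (c : S.R Z) (v : (S.A Z).Der) :
    cj (H.je Z) (c • v) = H.je Z c • cj (H.je Z) v :=
  (H.unr Z).ext fun a => by
    change cj (H.je Z) (c • v) (H.je Z a) = H.je Z c * cj (H.je Z) v (H.je Z a)
    rw [cj_e, cj_e, Derivation.smul_apply, smul_eq_mul, map_mul]

theorem cj_lie (Z : S.C) (v w : (S.A Z).Der) :
    cj (H.je Z) ⁅v, w⁆ = ⁅cj (H.je Z) v, cj (H.je Z) w⁆ :=
  (H.unr Z).ext fun a => by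
    change cj (H.je Z) ⁅v, w⁆ (H.je Z a) = ⁅cj (H.je Z) v, cj (H.je Z) w⁆ (H.je Z a)
    rw [Derivation.commutator_apply, cj_e, cj_e, cj_e, cj_e, cj_e, Derivation.commutator_apply,
      map_sub]

theorem cj_rel {Z Z' : S.C} (ψ : Z ⟶ Z') (w : (S.A Z').Der) {k : ℕ} (c : Fin k → S.R Z')
    (v : Fin k → (S.A Z).Der) (h : ∀ a, w (S.f ψ a) = ∑ j, c j * S.f ψ (v j a))
    (x : T.R (H.ob Z)) : cj (H.je Z') w (T.f (H.map ψ) x) =
      ∑ j, H.je Z' (c j) * T.f (H.map ψ) (cj (H.je Z) (v j) x) := by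
  obtain ⟨a, rfl⟩ := (H.je Z).surjective x
  simp only [je_nat, cj_e, h, map_sum, map_mul]

theorem b_tr {Z Z' : S.C} (ψ : Z ⟶ Z') (w : (S.A Z').Der) {k : ℕ} (c : Fin k → S.R Z')
    (v : Fin k → (S.A Z).Der) (h : ∀ a, w (S.f ψ a) = ∑ j, c j * S.f ψ (v j a)) :
    H.b Z' w - ∑ j, H.je Z' (c j) * T.f (H.map ψ) (H.b Z (v j)) =
      T.s • dlg (cj (H.je Z') w) (T.dl (H.map ψ)) -
        S.s • dlg (cj (H.je Z') w) (H.je Z' (S.dl ψ)) := by
  have hr := H.cj_rel ψ w c v h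
  have h1 := btr E (H.map ψ) (H.gT.unit _) _ _ _ hr
  have h2 := dlg_rel (S.f (E.map (H.map ψ))) (H.W Z' w) (fun j => E.i _ (H.je Z' (c j)))
    (fun j => H.W Z (v j)) (H.gS.unit (H.be Z)) (E.lf_rel (H.map ψ) _ _ _ hr _)
  have h3 := congrArg (fun φ => dlg (H.W Z' w) (S.dl φ)) (H.be_map ψ)
  simp only [H.gS.dl_comp] at h3
  rw [dlg_mul _ (H.gS.unit _) ((H.gS.unit _).map _), dlg_mul _ (H.gS.unit _) ((H.gS.unit _).map _),
    h2] at h3
  refine (H.bij _).1 ?_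
  have h4 := dlg_map (E.i (H.ob Z')) (H.W Z' w) (cj (H.je Z') w) (H.gT.unit (H.map ψ))
    (E.lf_i _ _ _)
  have h5 := dlg_map (E.i (H.ob Z')) (H.W Z' w) (cj (H.je Z') w)
    ((H.gS.unit ψ).map (H.je Z')) (E.lf_i _ _ _)
  simp only [map_sub, map_sum, map_mul, map_smul, ← E.nat, i_b, ← h4, ← h5, mul_sub,
    Finset.sum_sub_distrib, mul_smul_comm, ← Finset.smul_sum]
  rw [H.i_je Z' (S.dl ψ)]
  change _ = S.s • dlg (H.W Z' w) _ - T.s • dlg (H.W Z' w) _ at h1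
  simp only [Algebra.smul_def] at h1 ⊢
  linear_combination (-1 : S.R (E.ob (H.ob Z'))) * h1 - algebraMap ℂ _ S.s * h3

/-- **The inverse.** -/
def inv : EtF T S where
  ob := H.ob
  map := H.map
  map_id Z := H.faith _ _ _ _ (by rw [map_map, Category.id_comp, al_be, H.map_id])
  map_comp φ ψ := H.faith _ _ _ _ (by
    rw [H.map_comp, H.map_map φ, Category.assoc, Category.assoc, be_map, map_map, Category.assoc])
  cen Z φ h := absurd h (by rw [H.cen]; exact fun h => h)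
  i Z := H.je Z
  unr := H.unr
  lf Z v := cj (H.je Z) v
  lf_i Z v a := cj_e _ v a
  nat := H.je_nat
  unit _ := H.gT.unit _
  b := H.b
  b_add Z v w := (H.bij _).1 (by
    rw [map_add, i_b, i_b, i_b, W, cj_add, E.lf_add, E.b_add, dlg_add, smul_add, W, W]
    abel)
  b_smul Z a v := (H.bij _).1 (by
    rw [map_mul, i_b, i_b, W, cj_smul, E.lf_smul, E.b_smul, dlg_smul, mul_sub, mul_smul_comm, W]
    rfl)
  b_lie Z v w := (H.bij _).1 (by
    rw [map_sub, ← E.lf_i, ← E.lf_i, i_b, i_b, i_b, W, cj_lie, E.lf_lie, E.b_lie,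
      dlg_lie _ _ (H.gS.unit _), map_sub, map_sub, Derivation.map_smul, Derivation.map_smul,
      smul_sub, W, W]
    abel)
  b_tr {Z Z'} ψ w k c v h := by
    refine Eq.trans ((btr_iff (cj (H.je Z') w) ((H.gS.unit ψ).map (H.je Z')) (H.gT.unit _) _ _).2
      (H.b_tr ψ w c v h)) ?_
    rw [cj_e]
    rfl

end IsEqv

end

end Vale.Agent.P286EP
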