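import Vale.Agent.P286EP.V4
import Vale.Agent.P286EK.Kas
import Vale.Agent.P286EX10.DO
import Vale.Agent.P286EA2.Rd

/-!
# The lemma of Kashiwara for points on a curve
-/

set_option linter.all false

namespace Vale.Agent.P286EP

open CategoryTheory Vale.Agent.P286 Vale.Agent.P286.H847 Vale.Agent.P286.H353
  Vale.Agent.P286EK Vale.Agent.P286E
open Vale.Agent.P286EX (DOp XD)

noncomputable section

variable {I : Type} [SmallCategory I] {D : CD I} (ε : ℂ) (xd : XD D)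

/-- An algebra map to the closed elements of degree `0`. -/
def ofAlgT {R : Type} [Ring R] [Algebra ℂ R] {A : DGA} (φ : R →ₐ[ℂ] A.R)
    (hg : ∀ z, φ z ∈ A.gr 0) (hd : ∀ z, A.d (φ z) = 0) : AHom (DGA.ofAlg R) A :=
  ⟨φ, fun a => (map_zero φ).trans (hd a).symm, fun m a ha => by
    by_cases h : m = 0
    · exact h ▸ hg a
    · have h1 : φ a = 0 := (congrArg φ (ofAlg_zero (R := R) h ha)).trans (map_zero φ)
      exact (congrArg (· ∈ A.gr m) h1).mpr (zero_mem _)⟩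

/-- **The lemma of Kashiwara.** -/
theorem kos (hε : ε ≠ 0) (hf : ∀ i r, D.f i * r = 0 → r = 0) {Q : DD I} (b : Base Q xd.rd)
    (W : ∀ i, DOp (D.C i) (Q.A i).R Unit) (hj : ∀ i, (W i).j = b.ι i)
    (hδ : ∀ i, (W i).δ () = xd.pd i) (hW : ∀ i, Function.Injective (W i).nf) (T : TD Q)
    (hF : ∀ i, (T.F i).x = b.ι i (ε • D.f i)) (h1) (h2) :
    EQV (wc (b.tw T h1 h2)) (wc (qb D xd.sm)) := by
  have hr : ∀ i r, ε • D.f i * r = 0 → r = 0 := fun i r h => hf i r (by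
    rwa [smul_mul_assoc, smul_eq_zero_iff_right hε] at h)
  have hZ : ∀ i, (T.F i).x = (W i).j (ε • D.f i) := fun i => by rw [hj, hF]
  have key : ∀ i, ∃ a c : D.C i, 1 + a * ε • D.f i = c * (W i).δ () (ε • D.f i) := fun i => by
    obtain ⟨p, q, e⟩ := xd.cp i
    refine ⟨-(ε⁻¹ • p), ε⁻¹ • q, ?_⟩
    rw [hδ, Derivation.map_smul, neg_mul, smul_mul_smul_comm, smul_mul_smul_comm,
      inv_mul_cancel₀ hε, one_smul, one_smul, ← e, add_neg_cancel_comm]
  choose a c e1 using key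
  have hν : ∀ i, (W i).j (c i) * (W i).p () * (W i).j (ε • D.f i) = (W i).j (ε • D.f i) *
      ((W i).j (c i) * (W i).p ()) + (W i).j (1 + a i * ε • D.f i) := fun i => by
    rw [e1, mul_assoc, (W i).pj, mul_add, ← mul_assoc, (W i).jj (c i), mul_assoc, map_mul]
  let N : NK T (QD D) :=
    { K := fun i => DGA.ofAlg (D.C i)
      φ := fun i => ofAlgT (b.ι i) (b.gr i) (b.d i)
      π := fun i => ofAlgH (qmk D i)
      cm := fun i k => (h1 i k).symm
      sur := qmk_surj D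
      reg := fun i x h => (W i).reg (hW i) (hr i) (hZ i ▸ h)
      a := fun i x => by
        obtain ⟨y, z, e⟩ := DOp.kash_surj (hν i) x
        exact ⟨z, y, hZ i ▸ e⟩
      b := fun i x y h => by
        obtain ⟨_, ⟨r, rfl⟩, z, e⟩ := DOp.kash_ker (W := W i) (W i).j.range (fun r => ⟨r, rfl⟩)
          (τ := 0) (zero_mem _) (zero_mem _) (by simp) (fun _ => ⟨0, (W i).δ () (ε • D.f i), by
            rw [e1, mul_zero, zero_add, ← mul_assoc, ← map_mul, mul_comm (c i)]⟩) (hν i)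
          (by rintro _ ⟨r, rfl⟩; exact (W i).jj r _) (x := x) ⟨y, hZ i ▸ h.symm⟩
        refine ⟨r, z, ?_⟩
        change x = b.ι i r + (T.F i).x * z
        rw [← hj, hZ]
        exact (add_eq_of_eq_sub' e).symm
      c := fun i k => (qmk_eq D i k).trans ⟨fun ⟨r, e⟩ => ⟨b.ι i (ε⁻¹ • r), by
          change b.ι i k = _
          rw [hF, ← map_mul, smul_mul_smul_comm, mul_inv_cancel₀ hε, one_smul]
          exact congrArg _ e⟩,
        fun ⟨z, e⟩ => (Dvd.intro_left (algebraMap ℂ _ ε) (Algebra.smul_def _ _).symm).trans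
          ((W i).dvd_of (hW i) ⟨z, by
            rw [hj]
            exact (congrArg (· * z) (hF i).symm).trans e.symm⟩)⟩ }
  exact N.eqc (fun {i j} α k => (N.mem_ds α k).2 ⟨D.κ α k, 0, rfl,
    (b.τ_ι α k).trans ((add_zero _).symm.trans (congrArg (_ + ·) (mul_zero _).symm))⟩) h1 h2
    fun i z => ⟨z, rfl, rfl⟩

theorem f_reg {E : Ell} (e : Rt E) : ∀ i r, (D1 e).f i * r = 0 → r = 0
  | .a, _, h => ((mul_eq_zero (M₀ := Polynomial ℂ)).1 h).resolve_left (P286EU.f_ne E)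
  | .b, r, h => P286EU.kb_inj e (((((ES e).kb_f.symm ▸ ((ES e).c_unit.pow 2).mul (ES e).f_unit :
      IsUnit ((ES e).kb (ES e).fb))).mul_right_eq_zero.1 (((map_mul e.kb _ r).symm.trans
        (congrArg e.kb h)).trans (map_zero _))).trans (map_zero e.kb).symm)
  | .n, _, h => E.f_unit.mul_right_eq_zero.1 h

/-- **The odd part.** -/
theorem kos_v4 {E : Ell} (e : Rt E) (xd : XD (D1 e)) (hε : ε ≠ 0) {Q : DD P286ET.Ix}
    (b : Base Q xd.rd) (W : ∀ i, DOp ((D1 e).C i) (Q.A i).R Unit) (hj : ∀ i, (W i).j = b.ι i)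
    (hδ : ∀ i, (W i).δ () = xd.pd i) (hW : ∀ i, Function.Injective (W i).nf) (T : TD Q)
    (hF : ∀ i, (T.F i).x = b.ι i (ε • (D1 e).f i)) (h1) (h2) :
    EQV (wc (b.tw T h1 h2)) WD.v4 :=
  (kos ε xd hε (f_reg e) b W hj hδ hW T hF h1 h2).trans (v4 e xd.sm)

end

end Vale.Agent.P286EP
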