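import Vale.Agent.P286E99.DT

/-!
# The lemma of Kashiwara for the double cover `t² = f`
-/

set_option linter.all false

namespace Vale.Agent.P286EP

open MvPolynomial Vale.Agent.P286E Vale.Agent.P286EK Vale.Agent.P286EU Vale.Agent.P286E99
open Vale.Agent.P286EI (DW wd wd_n_C wd_n_X wd_s_C wd_s_X wd_cm mv_ext)
open Vale.Agent.P286EX (Ivl E4 Ext4 DOp DO)

noncomputable section

section Vf

variable {O D : Type} [CommRing O] [Algebra ℂ O] [Ring D] [Algebra ℂ D]
  (W : DOp O D (Option Unit))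

/-- A vector field. -/
def vf (a b : O) : D := W.j a * W.p none + W.j b * W.p (some ())

theorem vf_j (a b r : O) : vf W a b * W.j r =
    W.j r * vf W a b + W.j (a * W.δ none r + b * W.δ (some ()) r) := by
  simp only [vf, add_mul, mul_add, mul_assoc, W.pj, map_add, map_mul]
  simp only [← mul_assoc, W.jj r]
  abel

theorem vf_mem (a b : O) : vf W a b ∈ W.fil 2 :=
  add_mem (W.j_mul _ (W.p_mem _)) (W.j_mul _ (W.p_mem _))

theorem j_vf (r a b : O) : W.j r * vf W a b = vf W (r * a) (r * b) := by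
  simp only [vf, mul_add, map_mul, mul_assoc]

theorem vf_add (a b c d : O) : vf W a b + vf W c d = vf W (a + c) (b + d) := by
  simp only [vf, map_add, add_mul]
  abel

theorem vf_br (a b c d : O) : vf W a b * vf W c d - vf W c d * vf W a b ∈ W.fil 2 := by
  have h : ∀ a b c d, vf W a b * vf W c d = vf W (a * W.δ none c + b * W.δ (some ()) c)
      (a * W.δ none d + b * W.δ (some ()) d) + (W.j (a * c) * (W.p none * W.p none) +
        W.j (b * c + a * d) * (W.p none * W.p (some ())) +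
          W.j (b * d) * (W.p (some ()) * W.p (some ()))) := fun a b c d => by
    rw [show vf W a b * vf W c d = vf W a b * W.j c * W.p none +
      vf W a b * W.j d * W.p (some ()) by rw [mul_assoc, mul_assoc, ← mul_add]; rfl, vf_j, vf_j,
      j_vf, j_vf, mul_comm c, mul_comm c, mul_comm d, mul_comm d, map_add W.j (b * c)]
    simp only [vf, add_mul, mul_assoc, W.pp (some ()) none]
    abel
  rw [h, h, mul_comm c a, mul_comm d b, mul_comm d a, mul_comm c b, add_comm (a * d),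
    add_sub_add_right_eq_sub]
  exact sub_mem (vf_mem W _ _) (vf_mem W _ _)

end Vf

variable {B : Type} [CommRing B] [Algebra ℂ B] (pd : Derivation ℂ B B) (f : B)

/-- The equation. -/
def FO : MvPolynomial Unit B := X () ^ 2 - C f

/-- The half of the derivative. -/
def hf : MvPolynomial Unit B := C ((2 : ℂ)⁻¹ • pd f)

theorem two_hf : 2 * hf pd f = C (pd f) := by
  rw [hf, two_mul, ← map_add, ← add_smul]
  norm_num

/-- The tangent field `t ∂ + f'/2 ∂_t`. -/
def dT : Derivation ℂ (MvPolynomial Unit B) (MvPolynomial Unit B) :=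
  (X () : MvPolynomial Unit B) • wd Unit pd none + hf pd f • wd Unit pd (some ())

theorem dT_apply (r) : dT pd f r = X () * wd Unit pd none r + hf pd f * wd Unit pd (some ()) r := rfl

theorem dT_C (z : B) : dT pd f (C z) = X () * C (pd z) := by
  rw [dT_apply, wd_n_C, wd_s_C, mul_zero, add_zero]

theorem dT_X : dT pd f (X ()) = hf pd f := by
  rw [dT_apply, wd_n_X, wd_s_X, if_pos rfl, mul_zero, zero_add, mul_one]

theorem wd_n_F : wd Unit pd none (FO f) = -C (pd f) := by
  rw [FO, map_sub, Derivation.leibniz_pow, wd_n_X, wd_n_C, smul_zero, smul_zero, zero_sub]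

theorem wd_s_F : wd Unit pd (some ()) (FO f) = 2 * X () := by
  rw [FO, map_sub, Derivation.leibniz_pow, wd_s_X, wd_s_C, if_pos rfl]
  simp

theorem dT_F : dT pd f (FO f) = 0 := by
  rw [dT_apply, wd_n_F, wd_s_F, ← two_hf]
  ring

theorem F_reg (r : MvPolynomial Unit B) (h : FO f * r = 0) : r = 0 := by
  have h1 := congrArg (pUnitAlgEquiv B) h
  rw [map_mul, map_zero, FO, map_sub, map_pow] at h1
  have e1 : pUnitAlgEquiv B (X ()) = Polynomial.X := by simp
  have e2 : pUnitAlgEquiv B (C f) = Polynomial.C f := by simp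
  rw [e1, e2] at h1
  exact (pUnitAlgEquiv B).map_eq_zero_iff.1
    ((Polynomial.monic_X_pow_sub_C f two_ne_zero).mul_right_eq_zero_iff.1 h1)

/-- The projection to the double cover. -/
def qO : MvPolynomial Unit B →ₐ[ℂ] Dc f := aevalTower (Dc.of f) fun _ => Dc.t f

theorem qO_C (z : B) : qO f (C z) = Dc.of f z := aevalTower_C _ _ z

theorem qO_X : qO f (X ()) = Dc.t f := aevalTower_X _ _ ()

theorem qO_F : qO f (FO f) = 0 := by rw [FO, map_sub, map_pow, qO_X, qO_C, Dc.t_sq, sub_self]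

theorem qO_surj (x : Dc f) : ∃ r, qO f r = x := by
  obtain ⟨α, β, rfl⟩ := dc_rep x
  exact ⟨C α + C β * X (), by rw [map_add, map_mul, qO_C, qO_C, qO_X]⟩

theorem qO_ker {r : MvPolynomial Unit B} (h : qO f r = 0) : FO f ∣ r := by
  let π := Ideal.Quotient.mkₐ ℂ (Ideal.span {FO f})
  have h0 : π (X ()) ^ 2 = π.comp (IsScalarTower.toAlgHom ℂ B _) f := by
    rw [← map_pow, ← sub_eq_zero]
    exact (map_sub π _ _).symm.trans
      (Ideal.Quotient.eq_zero_iff_mem.2 (Ideal.mem_span_singleton_self _))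
  have h1 : (Dc.lift f _ _ h0).comp (qO f) = π := mv_ext
    (fun z => (congrArg _ (qO_C f z)).trans (Dc.lift_of _ _ _ h0 z))
    fun _ => (congrArg _ (qO_X f)).trans (Dc.lift_t _ _ _ h0)
  exact Ideal.mem_span_singleton.1 (Ideal.Quotient.eq_zero_iff_mem.1
    ((AlgHom.congr_fun h1 r).symm.trans ((congrArg _ h).trans (map_zero _))))

theorem qO_dT (r : MvPolynomial Unit B) : qO f (dT pd f r) = dcD f pd (qO f r) := by
  induction r using MvPolynomial.induction_on with
  | C z => rw [dT_C, map_mul, qO_X, qO_C, qO_C, dcD_of]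
  | add p q hp hq => simp only [map_add, hp, hq]
  | mul_X p a hp =>
    cases a
    simp only [Derivation.leibniz, smul_eq_mul, map_add, map_mul, hp, dT_X, qO_X, dcD_t, hf, qO_C,
      map_smul]

/-- The operators generated by the tangent field. -/
abbrev K0 : Type := DO fun _ : Unit => dT pd f

/-- The tangent field, as an operator. -/
def vT : D2 pd := vf (dop (wd Unit pd)) (X ()) (hf pd f)

/-- The inclusion in all operators. -/
def φ0 : K0 pd f →ₐ[ℂ] D2 pd :=
  DO.lift (dop (wd Unit pd)).j (fun _ => vT pd f) (fun _ r => vf_j _ _ _ r) fun _ _ => rfl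

theorem φ0_j (r) : φ0 pd f (DO.j _ r) = (dop (wd Unit pd)).j r := DO.lift_j _ _ _ _ r

theorem φ0_p : φ0 pd f (DO.p _ ()) = vT pd f := DO.lift_p _ _ _ _ ()

theorem vT_eq : vT pd f = DW.y pd () * DW.du Unit pd +
    DW.cf Unit pd ((2 : ℂ)⁻¹ • pd f) * DW.d pd () := rfl

theorem j_F : (dop (wd Unit pd)).j (FO f) = DW.y pd () ^ 2 - DW.cf Unit pd f := by
  rw [FO, map_sub, map_pow]
  rfl

/-- The involution of the functions. -/
def wO : MvPolynomial Unit B →ₐ[ℂ] MvPolynomial Unit B :=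
  aevalTower (IsScalarTower.toAlgHom ℂ B _) fun a => -X a

theorem wO_C (z : B) : wO (C z) = C z := aevalTower_C _ _ z

theorem wO_X (a : Unit) : wO (X a : MvPolynomial Unit B) = -X a := aevalTower_X _ _ a

theorem wO_dT (r : MvPolynomial Unit B) : wO (dT pd f r) = -dT pd f (wO r) := by
  induction r using MvPolynomial.induction_on with
  | C z => rw [dT_C, map_mul, wO_X, wO_C, wO_C, dT_C, neg_mul]
  | add p q hp hq => simp only [map_add, hp, hq, neg_add]
  | mul_X p a hp =>
    cases a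
    simp only [Derivation.leibniz, smul_eq_mul, map_add, map_mul, map_neg, hp, dT_X, wO_X, hf, wO_C]
    ring

theorem wK_rel (r : MvPolynomial Unit B) :
    -DO.p (fun _ : Unit => dT pd f) () * ((DO.j _).comp wO) r =
      ((DO.j _).comp wO) r * -DO.p (fun _ : Unit => dT pd f) () + ((DO.j _).comp wO) (dT pd f r) := by
  rw [AlgHom.comp_apply, AlgHom.comp_apply, neg_mul, DO.pj, wO_dT, map_neg, mul_neg, neg_add]

/-- The involution. -/
def wKf : K0 pd f →ₐ[ℂ] K0 pd f :=
  DO.lift ((DO.j _).comp wO) (fun _ => -DO.p _ ()) (fun _ => wK_rel pd f) fun _ _ => rfl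

theorem wKf_j (r) : wKf pd f (DO.j _ r) = DO.j _ (wO r) := DO.lift_j _ _ _ _ r

theorem wKf_p : wKf pd f (DO.p _ ()) = -DO.p _ () := DO.lift_p _ _ _ _ ()

theorem K0_ext {E : Type} [Ring E] [Algebra ℂ E] {φ ψ : K0 pd f →ₐ[ℂ] E}
    (h1 : ∀ z, φ (DO.j _ (C z)) = ψ (DO.j _ (C z))) (h2 : φ (DO.j _ (X ())) = ψ (DO.j _ (X ())))
    (h3 : φ (DO.p _ ()) = ψ (DO.p _ ())) : φ = ψ :=
  DO.hom_ext (AlgHom.congr_fun (mv_ext (φ := φ.comp (DO.j _)) (ψ := ψ.comp (DO.j _)) h1
    fun _ => h2)) fun _ => h3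

/-- The involution. -/
def wK : Ivl (K0 pd f) where
  f := wKf pd f
  ff := AlgHom.congr_fun (K0_ext pd f (φ := (wKf pd f).comp (wKf pd f)) (ψ := AlgHom.id ℂ _)
    (fun z => by simp [wKf_j, wO_C]) (by simp [wKf_j, wO_X]) (by simp [wKf_p]))

theorem φ0_w (x : K0 pd f) : φ0 pd f ((wK pd f).f x) = (wv pd).f (φ0 pd f x) :=
  AlgHom.congr_fun (K0_ext pd f (φ := (φ0 pd f).comp (wKf pd f)) (ψ := (wv pd).f.comp (φ0 pd f))
    (fun z => by
      rw [AlgHom.comp_apply, AlgHom.comp_apply, wKf_j, wO_C, φ0_j]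
      exact (wv_cf z).symm)
    (by
      rw [AlgHom.comp_apply, AlgHom.comp_apply, wKf_j, wO_X, map_neg, map_neg, φ0_j]
      exact (wv_y ()).symm)
    (by
      rw [AlgHom.comp_apply, AlgHom.comp_apply, wKf_p, map_neg, φ0_p, vT_eq, map_add, map_mul,
        map_mul, wv_y, wv_du, wv_cf, wv_d, neg_mul, mul_neg, neg_add])) x

theorem φ0_F (k : K0 pd f) : φ0 pd f k * (dop (wd Unit pd)).j (FO f) =
    (dop (wd Unit pd)).j (FO f) * φ0 pd f k := by
  induction k using DO.ind with
  | hj r => rw [φ0_j, DOp.jj]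
  | hp i =>
    rw [φ0_p, vT, vf_j]
    exact add_eq_left.2 ((congrArg _ (dT_F pd f)).trans (map_zero _))
  | add x y hx hy => rw [map_add, add_mul, mul_add, hx, hy]
  | mul x y hx hy => rw [map_mul, mul_assoc, hy, ← mul_assoc, hx, mul_assoc]

variable {pd f}

section

variable {p q : B} (h : p * f + q * pd f = 1)
include h

theorem one_F : 1 + C p * FO f = C p * X () ^ 2 + C q * C (pd f) := by
  have h1 := congrArg (C : B → MvPolynomial Unit B) h
  rw [map_add, map_mul, map_mul, map_one] at h1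
  rw [FO]
  linear_combination -h1

theorem nu_F : vf (dop (wd Unit pd)) (-(C q)) (C ((2 : ℂ)⁻¹ • p) * X ()) *
    (dop (wd Unit pd)).j (FO f) = (dop (wd Unit pd)).j (FO f) *
      vf (dop (wd Unit pd)) (-(C q)) (C ((2 : ℂ)⁻¹ • p) * X ()) +
        (dop (wd Unit pd)).j (1 + C p * FO f) := by
  have e : 2 * (C ((2 : ℂ)⁻¹ • p) : MvPolynomial Unit B) = C p := by
    rw [two_mul, ← map_add, ← add_smul]
    norm_num
  rw [vf_j, one_F h, dop_δ, wd_n_F, wd_s_F, ← e]
  exact congrArg (_ + (dop (wd Unit pd)).j ·) (by ring)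

theorem kt_b {x y : D2 pd} (e : x * (dop (wd Unit pd)).j (FO f) = (dop (wd Unit pd)).j (FO f) * y) :
    ∃ k z, x = φ0 pd f k + (dop (wd Unit pd)).j (FO f) * z := by
  have e2 : 2 * (C ((2 : ℂ)⁻¹ • p) : MvPolynomial Unit B) = C p := by
    rw [two_mul, ← map_add, ← add_smul]
    norm_num
  obtain ⟨_, ⟨k, rfl⟩, z, e1⟩ := DOp.kash_ker (W := dop (wd Unit pd)) (φ0 pd f).range
    (fun r => ⟨_, φ0_j pd f r⟩) (τ := vT pd f) ⟨_, φ0_p pd f⟩ (vf_mem _ _ _) (vf_br _ _ _ _ _)
    (fun i => by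
      rcases i with _ | _
      · refine ⟨C p * X (), -C (pd f), ?_⟩
        rw [vT, j_vf, j_vf, vf_add, vf, one_F h, ← two_hf, ← e2, show 2 * C ((2 : ℂ)⁻¹ • p) * X () *
          hf pd f + -(2 * hf pd f) * (C ((2 : ℂ)⁻¹ • p) * X ()) = 0 by ring, map_zero, zero_mul,
          add_zero]
        exact congrArg ((dop (wd Unit pd)).j · * _) (by ring)
      · refine ⟨2 * C q, 2 * X (), ?_⟩
        rw [vT, j_vf, j_vf, vf_add, vf, one_F h, ← two_hf, ← e2,
          show (2 * C q * X () + 2 * X () * -C q : MvPolynomial Unit B) = 0 by ring, map_zero,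
          zero_mul, zero_add]
        exact congrArg ((dop (wd Unit pd)).j · * _) (by ring))
    (nu_F h) (by rintro _ ⟨k, rfl⟩; exact φ0_F pd f k) (x := x) ⟨y, e.symm⟩
  exact ⟨k, z, (add_eq_of_eq_sub' e1).symm⟩

theorem kt_cap (hs : Ideal.span (Set.range pd) = ⊤) {k : K0 pd f}
    (hk : φ0 pd f k ∈ (dop (wd Unit pd)).rI (FO f)) : k ∈ (DO.op _).rI (FO f) := by
  refine DOp.kash_cap (DO.op _) (φ0 pd f) (φ0_j pd f)
    (fun r => (dop (wd Unit pd)).dvd_of (dop_inj (wd_cm pd))) (fun r hr => ?_) hk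
  have h1 : FO f ∣ r * hf pd f := dT_X pd f ▸ hr (X ())
  have h2 : ∀ z ∈ Ideal.span (Set.range pd), FO f ∣ r * X () * C z := fun z hz => by
    induction hz using Submodule.span_induction with
    | mem _ hz =>
      obtain ⟨z, rfl⟩ := hz
      rw [mul_assoc, ← dT_C pd f]
      exact hr (C z)
    | zero => rw [map_zero, mul_zero]; exact dvd_zero _
    | add x y _ _ hx hy => rw [map_add, mul_add]; exact dvd_add hx hy
    | smul a x _ hx => rw [smul_eq_mul, map_mul, mul_left_comm]; exact hx.mul_left _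
  have h3 := h2 1 (hs ▸ Submodule.mem_top)
  rw [map_one, mul_one] at h3
  have e : r = r * X () * (C p * X ()) + r * hf pd f * (2 * C q) - FO f * (C p * r) := by
    linear_combination r * one_F h - (r * C q) * two_hf pd f
  rw [e]
  exact dvd_sub (dvd_add (h3.mul_right _) (h1.mul_right _)) (dvd_mul_right _ _)

end

variable {U : Type} [Ring U] [Algebra ℂ U] (V : DOp (Dc f) U Unit) (hV : V.δ () = dcD f pd)

/-- The projection to the operators on the double cover. -/
def π0 : K0 pd f →ₐ[ℂ] U :=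
  DO.lift (V.j.comp (qO f)) V.p (fun _ r => (V.pj () (qO f r)).trans (by
    rw [hV, ← qO_dT]; rfl)) V.pp

theorem π0_j (r) : π0 V hV (DO.j _ r) = V.j (qO f r) := DO.lift_j _ _ _ _ r

theorem π0_p : π0 V hV (DO.p _ ()) = V.p () := DO.lift_p _ _ _ _ ()

theorem π0_surj (x : U) : ∃ k, π0 V hV k = x := by
  induction x using V.ind with
  | hj r =>
    obtain ⟨r, rfl⟩ := qO_surj f r
    exact ⟨_, π0_j V hV r⟩
  | hp i => exact ⟨_, π0_p V hV⟩
  | add x y hx hy =>
    obtain ⟨a, rfl⟩ := hx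
    obtain ⟨b, rfl⟩ := hy
    exact ⟨_, map_add _ a b⟩
  | mul x y hx hy =>
    obtain ⟨a, rfl⟩ := hx
    obtain ⟨b, rfl⟩ := hy
    exact ⟨_, map_mul _ a b⟩

theorem π0_nf (v : (Unit →₀ ℕ) →₀ MvPolynomial Unit B) : π0 V hV ((DO.op _).nf v) =
    V.nf (v.mapRange (qO f) (map_zero _)) := by
  have e1 : ∀ α, π0 V hV ((DO.op _).mon α) = V.mon α := fun α => by
    induction α using Finsupp.induction with
    | zero => rw [DOp.mon_zero, DOp.mon_zero, map_one]
    | single_add i n β _ _ ih =>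
      rw [DOp.mon_add, DOp.mon_add, DOp.mon_single, DOp.mon_single, map_mul, map_pow, ih]
      exact congrArg (· ^ n * _) (π0_p V hV)
  induction v using Finsupp.induction_linear with
  | zero => rw [map_zero, map_zero, Finsupp.mapRange_zero, map_zero]
  | add x y hx hy => rw [map_add, map_add, hx, hy, Finsupp.mapRange_add (map_add _), map_add]
  | single α r =>
    rw [DOp.nf_single, Finsupp.mapRange_single, DOp.nf_single, map_mul, e1]
    exact congrArg (· * _) (π0_j V hV r)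

theorem π0_ker (hi : Function.Injective V.nf) (k : K0 pd f) :
    π0 V hV k = 0 ↔ ∃ z, k = DO.j _ (FO f) * z := by
  refine ⟨fun h => ?_, ?_⟩
  · obtain ⟨v, rfl⟩ := (DO.op _).nf_surj k
    rw [π0_nf, ← map_zero V.nf] at h
    have h1 : ∀ α, FO f ∣ v α := fun α => qO_ker f (congrArg (· α) (hi h))
    clear h
    rw [← Finsupp.sum_single v, Finsupp.sum, map_sum]
    refine Finset.sum_induction _ (fun k : K0 pd f => ∃ z, k = DO.j _ (FO f) * z) ?_
      ⟨0, (mul_zero _).symm⟩ fun α _ => ?_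
    · rintro _ _ ⟨a, rfl⟩ ⟨b, rfl⟩
      exact ⟨a + b, (mul_add _ _ _).symm⟩
    · obtain ⟨r, e⟩ := h1 α
      rw [e, DOp.nf_single, map_mul, mul_assoc]
      exact ⟨_, rfl⟩
  · rintro ⟨z, rfl⟩
    rw [map_mul, π0_j, qO_F, map_zero, zero_mul]

theorem kt_c {p q : B} (h : p * f + q * pd f = 1) (hs : Ideal.span (Set.range pd) = ⊤)
    (hi : Function.Injective V.nf) (k : K0 pd f) :
    π0 V hV k = 0 ↔ ∃ z, φ0 pd f k = (dop (wd Unit pd)).j (FO f) * z := by
  rw [π0_ker V hV hi]
  refine ⟨?_, fun ⟨z, e⟩ => ?_⟩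
  · rintro ⟨z, rfl⟩
    exact ⟨_, by rw [map_mul, φ0_j]⟩
  · obtain ⟨z', e'⟩ := kt_cap h hs ⟨z, e.symm⟩
    exact ⟨z', e'.symm⟩

end

end Vale.Agent.P286EP
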