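import Vale.Agent.P286EP.Kt
import Vale.Agent.P286EK.Kas
import Vale.Agent.P286E16.Eqv

/-!
# The lemma of Kashiwara for the diagram of double covers
-/

set_option linter.all false

namespace Vale.Agent.P286EP

open CategoryTheory MvPolynomial Vale.Agent.P286E Vale.Agent.P286EK Vale.Agent.P286EU
  Vale.Agent.P286E99
open Vale.Agent.P286EI (DW wd wd_cm)
open Vale.Agent.P286EX (Ivl E4 Ext4 DOp DO XD UUD uBx eqv_uBx uω uj uδ uwf uwf_j uwf_p uτ uτ_j uτ_p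
  UU_io UU_w UU_ep)

noncomputable section

section Four

variable {K D U : Type} [Ring K] [Algebra ℂ K] [Ring D] [Algebra ℂ D] [Ring U] [Algebra ℂ U]
  {ω : Ivl K} {ω' : Ivl D} {ω'' : Ivl U} {φ : K →ₐ[ℂ] D} (hφ : ∀ x, φ (ω.f x) = ω'.f (φ x))
  {π : K →ₐ[ℂ] U} (hπ : ∀ x, π (ω.f x) = ω''.f (π x)) {F : D} (hF : ω'.f F = F)

include hF in
theorem mul_F (x : E4 ω') : x * E4.io ω' F = ⟨x.a * F, x.b * F, x.c * F, x.e * F⟩ := by
  rw [E4.mul_io, hF]

include hF in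
theorem e4_cm (h : ∀ k, φ k * F = F * φ k) (k : E4 ω) :
    E4.map φ hφ k * E4.io ω' F = E4.io ω' F * E4.map φ hφ k := by
  rw [mul_F hF, E4.io_mul]
  exact E4.ext (h _) (h _) (h _) (h _)

theorem e4_sur (h : ∀ x, ∃ k, π k = x) (x : E4 ω'') : ∃ k, E4.map π hπ k = x := by
  choose g hg using h
  exact ⟨⟨g x.a, g x.b, g x.c, g x.e⟩, E4.ext (hg _) (hg _) (hg _) (hg _)⟩

theorem e4_reg (h : ∀ x, F * x = 0 → x = 0) (x : E4 ω') (hx : E4.io ω' F * x = 0) : x = 0 := by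
  rw [E4.io_mul] at hx
  exact E4.ext (h _ (congrArg E4.a hx)) (h _ (congrArg E4.b hx)) (h _ (congrArg E4.c hx))
    (h _ (congrArg E4.e hx))

include hF in
theorem e4_a (h : ∀ x, ∃ a b, x = F * a + b * F) (x : E4 ω') :
    ∃ a b, x = E4.io ω' F * b + a * E4.io ω' F := by
  choose u v e using h
  refine ⟨⟨v x.a, v x.b, v x.c, v x.e⟩, ⟨u x.a, u x.b, u x.c, u x.e⟩, ?_⟩
  rw [mul_F hF, E4.io_mul]
  exact E4.ext (e _) (e _) (e _) (e _)

include hF in
theorem e4_b (h : ∀ x y, x * F = F * y → ∃ k z, x = φ k + F * z) (x y : E4 ω')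
    (e : x * E4.io ω' F = E4.io ω' F * y) : ∃ k z, x = E4.map φ hφ k + E4.io ω' F * z := by
  rw [mul_F hF, E4.io_mul] at e
  obtain ⟨k1, z1, e1⟩ := h _ _ (congrArg E4.a e)
  obtain ⟨k2, z2, e2⟩ := h _ _ (congrArg E4.b e)
  obtain ⟨k3, z3, e3⟩ := h _ _ (congrArg E4.c e)
  obtain ⟨k4, z4, e4⟩ := h _ _ (congrArg E4.e e)
  refine ⟨⟨k1, k2, k3, k4⟩, ⟨z1, z2, z3, z4⟩, ?_⟩
  rw [E4.io_mul]
  exact E4.ext e1 e2 e3 e4

theorem e4_c (h : ∀ k, π k = 0 ↔ ∃ z, φ k = F * z) (k : E4 ω) :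
    E4.map π hπ k = 0 ↔ ∃ z, E4.map φ hφ k = E4.io ω' F * z := by
  refine ⟨fun e => ?_, fun ⟨z, e⟩ => ?_⟩
  · obtain ⟨z1, e1⟩ := (h _).1 (congrArg E4.a e)
    obtain ⟨z2, e2⟩ := (h _).1 (congrArg E4.b e)
    obtain ⟨z3, e3⟩ := (h _).1 (congrArg E4.c e)
    obtain ⟨z4, e4⟩ := (h _).1 (congrArg E4.e e)
    refine ⟨⟨z1, z2, z3, z4⟩, ?_⟩
    rw [E4.io_mul]
    exact E4.ext e1 e2 e3 e4
  · rw [E4.io_mul] at e
    exact E4.ext ((h _).2 ⟨_, congrArg E4.a e⟩) ((h _).2 ⟨_, congrArg E4.b e⟩)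
      ((h _).2 ⟨_, congrArg E4.c e⟩) ((h _).2 ⟨_, congrArg E4.e e⟩)

end Four

variable {I : Type} [SmallCategory I] {D : CD I} (xd : XD D) (lam : ℂ) (k : ℤ)

theorem span_pd (i : I) : Ideal.span (Set.range (xd.pd i)) = ⊤ := by
  have h : ∀ w ∈ Submodule.span (D.C i) (Set.range (KaehlerDifferential.D ℂ (D.C i))),
      (xd.pd i).liftKaehlerDifferential w ∈ Ideal.span (Set.range (xd.pd i)) := fun w hw => by
    induction hw using Submodule.span_induction with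
    | mem _ hw =>
      obtain ⟨z, rfl⟩ := hw
      rw [Derivation.liftKaehlerDifferential_comp_D]
      exact Ideal.subset_span ⟨z, rfl⟩
    | zero => rw [map_zero]; exact zero_mem _
    | add x y _ _ hx hy => rw [map_add]; exact add_mem hx hy
    | smul a x _ hx => rw [map_smul]; exact Submodule.smul_mem _ a hx
  exact (Ideal.eq_top_iff_one _).2 (xd.pd_om i ▸ h _
    (KaehlerDifferential.span_range_derivation (R := ℂ) (S := D.C i) ▸ Submodule.mem_top))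

/-- The projection. -/
def πU (i : I) : K0 (xd.pd i) (D.f i) →ₐ[ℂ] P286EX.UD (xd.vfd.uk lam k) i :=
  π0 (DO.op fun _ : Unit => dcD (D.f i) (xd.pd i)) rfl

theorem πU_C (i : I) (z : D.C i) :
    πU xd lam k i (DO.j _ (C z)) = uj (xd.vfd.uk lam k) i (Dc.of (D.f i) z) :=
  (π0_j _ rfl _).trans (congrArg _ (qO_C _ z))

theorem πU_X (i : I) : πU xd lam k i (DO.j _ (X ())) = uj (xd.vfd.uk lam k) i (Dc.t (D.f i)) :=
  (π0_j _ rfl _).trans (congrArg _ (qO_X _))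

theorem πU_p (i : I) : πU xd lam k i (DO.p _ ()) = DO.p (uδ (xd.vfd.uk lam k) i) () :=
  π0_p _ rfl

theorem πU_w (i : I) (x) : πU xd lam k i ((wK (xd.pd i) (D.f i)).f x) =
    (uω (xd.vfd.uk lam k) i).f (πU xd lam k i x) :=
  AlgHom.congr_fun (K0_ext _ _ (φ := (πU xd lam k i).comp (wKf _ _))
    (ψ := (uwf _ i).comp (πU xd lam k i))
    (fun z => by
      rw [AlgHom.comp_apply, AlgHom.comp_apply, wKf_j, wO_C, πU_C]
      exact ((uwf_j _ i _).trans (congrArg _ (dcW_of _ z))).symm)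
    (by
      rw [AlgHom.comp_apply, AlgHom.comp_apply, wKf_j, wO_X, map_neg, map_neg, πU_X]
      exact ((uwf_j _ i _).trans ((congrArg _ (dcW_t _)).trans (map_neg _ _))).symm)
    (by rw [AlgHom.comp_apply, AlgHom.comp_apply, wKf_p, map_neg, πU_p, uwf_p])) x

/-- The data for the lemma of Kashiwara. -/
def nkT : NK (tdT (cq xd.vfd lam k)) (UUD (xd.vfd.uk lam k)) where
  K i := Ext4 (wK (xd.pd i) (D.f i))
  φ i := Ext4.map (φ0 (xd.pd i) (D.f i)) (φ0_w _ _)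
  π i := Ext4.map (πU xd lam k i) (πU_w xd lam k i)
  cm i := e4_cm (φ0_w _ _) (wv_FT (V := xd.vfd) i) fun x => by
    have h := φ0_F (xd.pd i) (D.f i) x
    rwa [j_F] at h
  sur i := e4_sur (πU_w xd lam k i) (π0_surj _ rfl)
  reg i := e4_reg fun x h => (dop _).reg (dop_inj (wd_cm (xd.pd i))) (F_reg (D.f i))
    ((congrArg (· * x) (j_F _ _)).trans h)
  a i := e4_a (wv_FT (V := xd.vfd) i) fun x => by
    obtain ⟨p, q, h⟩ := xd.cp i
    have h1 := DOp.kash_surj (nu_F h) x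
    rwa [j_F] at h1
  b i := e4_b (φ0_w _ _) (wv_FT (V := xd.vfd) i) fun x y e => by
    obtain ⟨p, q, h⟩ := xd.cp i
    have h1 := kt_b h (x := x) (y := y) (by rw [j_F]; exact e)
    rwa [j_F] at h1
  c i := e4_c (φ0_w _ _) (πU_w xd lam k i) fun x => by
    obtain ⟨p, q, h⟩ := xd.cp i
    have h1 := kt_c (DO.op fun _ : Unit => dcD (D.f i) (xd.pd i)) rfl h (span_pd xd i)
      (DO.pbw fun _ _ _ => rfl).1 x
    rwa [j_F] at h1

theorem ds_io {i j : I} (α : i ⟶ j) (x : K0 (xd.pd i) (D.f i)) (x' : K0 (xd.pd j) (D.f j))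
    (z : D2 (xd.pd j)) (h1 : uτ _ α (πU xd lam k i x) = πU xd lam k j x')
    (h2 : ((cq xd.vfd lam k).t α).m2 (φ0 _ _ x) = φ0 _ _ x' + FT xd.vfd j * z) :
    E4.io _ x ∈ (nkT xd lam k).ds α := by
  refine ((nkT xd lam k).mem_ds α _).2 ⟨E4.io _ x', E4.io _ z, ?_, ?_⟩
  · exact (congrArg _ (E4.map_io _ (πU_w xd lam k i) x)).trans ((UU_io _ α _).trans
      ((congrArg _ h1).trans (E4.map_io _ (πU_w xd lam k j) x').symm))
  · exact (congrArg _ (E4.map_io _ (φ0_w _ _) x)).trans ((DT_io _ α _).trans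
      ((congrArg _ h2).trans ((map_add _ _ _).trans (congrArg₂ (· + ·)
        (E4.map_io _ (φ0_w _ _) x').symm (map_mul _ _ _)))))

theorem κ_hf {i j : I} (α : i ⟶ j) : D.κ α ((2 : ℂ)⁻¹ • xd.pd i (D.f i)) =
    D.c α * (D.f j * xd.vfd.lc α + (2 : ℂ)⁻¹ • xd.pd j (D.f j)) := by
  have h1 : D.κ α (xd.pd i (D.f i)) =
      (2 : ℂ) • (D.f j * xd.pd j (D.c α)) + D.c α * xd.pd j (D.f j) :=
    (D.c_unit α).mul_left_cancel (by
      rw [← xd.pd_κ, D.κ_f, Derivation.leibniz, Derivation.leibniz_pow, two_smul ℂ]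
      simp only [smul_eq_mul, nsmul_eq_mul]
      push_cast
      ring)
  rw [map_smul, h1, smul_add, smul_smul, inv_mul_cancel₀ two_ne_zero, one_smul, mul_add,
    mul_smul_comm, mul_left_comm, xd.vfd.mul_lc]

theorem m2_vT {i j : I} (α : i ⟶ j) : ((cq xd.vfd lam k).t α).m2 (vT (xd.pd i) (D.f i)) =
    vT (xd.pd j) (D.f j) + DW.cf Unit (xd.pd j) (xd.vfd.lz lam k α) * DW.y (xd.pd j) () +
      FT xd.vfd j * -(DW.cf Unit (xd.pd j) (xd.vfd.lc α) * DW.d (xd.pd j) ()) := by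
  have e : ∀ x, DW.cf Unit (xd.pd j) (D.c α) * (DW.cf Unit (xd.pd j) ((cu D α)⁻¹ : (D.C j)ˣ) * x) =
      x := fun x => by
    rw [← mul_assoc, ← map_mul]
    exact (congrArg (DW.cf Unit (xd.pd j) · * x) (cu D α).mul_inv).trans (by rw [map_one, one_mul])
  have yc : ∀ z x, DW.y (xd.pd j) () * (DW.cf Unit (xd.pd j) z * x) =
      DW.cf Unit (xd.pd j) z * (DW.y (xd.pd j) () * x) := fun z x => by
    rw [← mul_assoc, DW.y_cf, mul_assoc]
  rw [vT_eq, vT_eq, map_add, map_mul, map_mul, T1.m2_y, T1.m2_du, T1.m2_cf, T1.m2_d]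
  change DW.cf Unit (xd.pd j) (D.c α) * DW.y (xd.pd j) () *
    (DW.cf Unit (xd.pd j) ((cu D α)⁻¹ : (D.C j)ˣ) * (DW.du Unit (xd.pd j) -
      DW.cf Unit (xd.pd j) (xd.vfd.lc α) * DW.Eu Unit (xd.pd j) +
        DW.cf Unit (xd.pd j) ((cq xd.vfd lam k).l α))) +
    DW.cf Unit (xd.pd j) (D.κ α ((2 : ℂ)⁻¹ • xd.pd i (D.f i))) *
      (DW.cf Unit (xd.pd j) ((cu D α)⁻¹ : (D.C j)ˣ) * DW.d (xd.pd j) ()) = _
  rw [κ_hf, cq_lz, mul_comm (D.c α), map_mul, mul_assoc, mul_assoc, yc, e, e, Eu_eq, map_add,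
    map_mul, mul_add, mul_sub, yc, DW.y_cf, FT, sq, mul_neg, sub_mul, mul_assoc, yc, yc]
  noncomm_ring

theorem ds_all {i j : I} (α : i ⟶ j) (x : ((nkT xd lam k).K i).R) : x ∈ (nkT xd lam k).ds α := by
  have hC : ∀ z : D.C i, E4.io (wK (xd.pd i) (D.f i)) (DO.j _ (C z)) ∈ (nkT xd lam k).ds α :=
    fun z => ds_io xd lam k α _ (DO.j _ (C (D.κ α z))) 0
      (by rw [πU_C, πU_C]; exact (uτ_j _ α _).trans (congrArg _ (dcM_of _ _ (D.κ_f α) z)))
      (by rw [φ0_j, φ0_j, mul_zero, add_zero]; exact T1.m2_cf _ z)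
  have hX : E4.io (wK (xd.pd i) (D.f i)) (DO.j _ (X ())) ∈ (nkT xd lam k).ds α :=
    ds_io xd lam k α _ (DO.j _ (C (D.c α)) * DO.j _ (X ())) 0
      (by
        rw [map_mul, πU_C, πU_X, πU_X]
        exact (uτ_j _ α _).trans ((congrArg _ (dcM_t _ _ (D.κ_f α))).trans (map_mul _ _ _)))
      (by rw [map_mul, φ0_j, φ0_j, φ0_j, mul_zero, add_zero]; exact T1.m2_y _ ())
  induction x using E4.ind with
  | hi x =>
    induction x using DO.ind with
    | hj r =>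
      induction r using MvPolynomial.induction_on with
      | C z => exact hC z
      | add p q hp hq => rw [map_add, map_add]; exact add_mem hp hq
      | mul_X p a hp => rw [map_mul, map_mul]; exact mul_mem hp hX
    | hp a =>
      exact ds_io xd lam k α _ (DO.p _ () + DO.j _ (C (xd.vfd.lz lam k α)) * DO.j _ (X ())) _
        (by
          rw [map_add, map_mul, πU_p, πU_p, πU_C, πU_X]
          exact (uτ_p _ α).trans (congrArg _ (map_mul _ _ _)))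
        (by rw [map_add, map_mul, φ0_p, φ0_p, φ0_j, φ0_j]; exact m2_vT xd lam k α)
    | add x y hx hy => rw [map_add]; exact add_mem hx hy
    | mul x y hx hy => rw [map_mul]; exact mul_mem hx hy
  | hw =>
    exact ((nkT xd lam k).mem_ds α _).2 ⟨E4.w _, 0,
      (congrArg _ (E4.map_w _ (πU_w xd lam k i))).trans
        ((UU_w _ α).trans (E4.map_w _ (πU_w xd lam k j)).symm),
      (congrArg _ (E4.map_w _ (φ0_w _ _))).trans ((DT_w _ α).trans ((E4.map_w _ (φ0_w _ _)).symm.trans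
        ((add_zero _).symm.trans (congrArg _ (mul_zero _).symm))))⟩
  | he =>
    exact ((nkT xd lam k).mem_ds α _).2 ⟨E4.ep _, 0,
      (congrArg _ (E4.map_ep _ (πU_w xd lam k i))).trans
        ((UU_ep _ α).trans (E4.map_ep _ (πU_w xd lam k j)).symm),
      (congrArg _ (E4.map_ep _ (φ0_w _ _))).trans ((DT_ep _ α).trans
        ((E4.map_ep _ (φ0_w _ _)).symm.trans
          ((add_zero _).symm.trans (congrArg _ (mul_zero _).symm))))⟩
  | add x y hx hy => exact add_mem hx hy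
  | mul x y hx hy => exact mul_mem hx hy

/-- **The lemma of Kashiwara.** -/
theorem kashU : EQV (wc (bT (cq xd.vfd lam k) xd.sm)) (wc (uBx xd lam k)) :=
  (nkT xd lam k).eqc (ds_all xd lam k) _ _ fun i z => ⟨E4.io _ (DO.j _ (C z)),
    ((E4.map_io _ (πU_w xd lam k i) _).trans (congrArg _ (πU_C xd lam k i z))).symm,
    ((E4.map_io _ (φ0_w _ _) _).trans (congrArg _ (φ0_j _ _ _))).symm⟩

/-- **The lemma of Kashiwara.** -/
theorem kash : EQV (wc (bT (cq xd.vfd lam k) xd.sm)) (um (xd.vfd.uk lam k)) :=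
  (kashU xd lam k).trans (eqv_uBx xd lam k)

end

end Vale.Agent.P286EP
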