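import Vale.Agent.P286EP.Prod
import Vale.Agent.P286EK.Mor
import Vale.Agent.P286EG.Ag2

/-!
# Modules over diagrams of split semisimple algebras
-/

set_option linter.all false

namespace Vale.Agent.P286EP

open CategoryTheory Vale.Agent.P286 Vale.Agent.P286.H847 Vale.Agent.P286.H353
  Vale.Agent.P286EK Vale.Agent.P286E Vale.Agent.P286.H64 Vale.Agent.P286.H274
open Vale.Agent.P286EG (gpi)

noncomputable section

universe u v

/-- The power of a DG category. -/
def wpi (J : Type) (P : WD.{u, v}) : WD.{u, v} :=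
  ⟨pi fun _ : J => P.C, piW fun _ => P.W, ids_pi fun _ => P.wid⟩

/-- The four projections. -/
def pr4 (P : WD.{u, v}) : Bool × Bool → DGF ((P.prod P).prod (P.prod P)).C P.C
  | (false, false) => (dfst _ _).comp (dfst _ _)
  | (false, true) => (dfst _ _).comp (dsnd _ _)
  | (true, false) => (dsnd _ _).comp (dfst _ _)
  | (true, true) => (dsnd _ _).comp (dsnd _ _)

/-- The four components. -/
def to4 (P : WD.{u, v}) :
    DGF (pi fun _ : Bool × Bool => P.C) ((P.prod P).prod (P.prod P)).C :=
  dpair (dpair (ev (fun _ : Bool × Bool => P.C) (false, false))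
    (ev (fun _ : Bool × Bool => P.C) (false, true)))
    (dpair (ev (fun _ : Bool × Bool => P.C) (true, false))
      (ev (fun _ : Bool × Bool => P.C) (true, true)))

theorem to4_pr (P : WD.{u, v}) : (fun j => (to4 P).comp (pr4 P j)) =
    fun j => ev (fun _ : Bool × Bool => P.C) j := funext fun j => by
  obtain ⟨_ | _, _ | _⟩ := j <;> rfl

theorem wpi_four (P : WD.{u, v}) : EQV (wpi (Bool × Bool) P) ((P.prod P).prod (P.prod P)) := by
  refine Eq2.of_eq (to4 P) (piLift (pr4 P))
    (fun _ _ a h => ⟨⟨h _, h _⟩, h _, h _⟩) (fun _ _ a h j => ?_) ?_ rfl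
  · obtain ⟨_ | _, _ | _⟩ := j
    exacts [h.1.1, h.1.2, h.2.1, h.2.2]
  · exact congrArg (fun F : Bool × Bool → DGF (pi fun _ : Bool × Bool => P.C) P.C =>
      (piLift F).z0) (to4_pr P)

theorem wpi_v4 {J : Type} (e : Bool × Bool ≃ J) : EQV (wpi J WD.vec) WD.v4 :=
  EQV.trans (P := wpi J WD.vec) (Q := wpi (Bool × Bool) WD.vec) (Eq2.reindex e _ _) (wpi_four _)

/-- A DG algebra which is a finite product of copies of `ℂ`. -/
structure Spl (A : DGA) (K : Type) [Fintype K] [DecidableEq K] where
  χ : K → (A.R →ₐ[ℂ] ℂ)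
  e : K → A.R
  mul_e : ∀ k r, r * e k = χ k r • e k
  e_mul : ∀ k r, e k * r = χ k r • e k
  χ_e : ∀ k l, χ k (e l) = if k = l then 1 else 0
  sum_e : ∑ k, e k = 1
  g0 : ∀ m, m ≠ 0 → ∀ r ∈ A.gr m, r = 0

namespace Spl

variable {A : DGA} {K : Type} [Fintype K] [DecidableEq K] (S : Spl A K)
include S

theorem mem (r : A.R) : r ∈ A.gr 0 := by
  induction r using A.ind with
  | zero => exact zero_mem _
  | hom m x hx =>
    by_cases h : m = 0
    · exact h ▸ hx
    · rw [S.g0 m h x hx]
      exact zero_mem _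
  | add x y hx hy => exact add_mem hx hy

theorem d_eq (r : A.R) : A.d r = 0 := S.g0 (0 + 1) (by decide) _ (A.dgr 0 r (S.mem r))

theorem sg_eq (r : A.R) : A.sg r = r := by
  rw [A.sg_gr 0 r (S.mem r), Int.negOnePow_zero, Units.val_one, one_smul]

theorem sz_eq (n : ℤ) (r : A.R) : A.sz n r = r := by
  by_cases h : Even n
  · exact A.sz_even h r
  · rw [A.sz_odd h, S.sg_eq]

/-- The action of an element. -/
def op (M : DGM A) (r : A.R) : GD.Hom M.toGD M.toGD where
  f := M.act r
  comm x := by rw [M.leib, S.d_eq, S.sg_eq, map_zero, LinearMap.zero_apply, zero_add]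
  deg m x hx := by
    have h := M.act_gr 0 m r x (S.mem r) hx
    rwa [zero_add] at h

theorem e_act (M : DGM A) (k : K) (r : A.R) (x : M.V) :
    M.act (S.e k) (M.act r x) = S.χ k r • M.act (S.e k) x := by
  rw [← M.act_mul, S.e_mul, map_smul, LinearMap.smul_apply]

theorem act_e (M : DGM A) (k : K) (r : A.R) (x : M.V) :
    M.act r (M.act (S.e k) x) = S.χ k r • M.act (S.e k) x := by
  rw [← M.act_mul, S.mul_e, map_smul, LinearMap.smul_apply]

theorem idem (M : DGM A) (k : K) (x : M.V) :
    M.act (S.e k) (M.act (S.e k) x) = M.act (S.e k) x := by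
  rw [e_act, S.χ_e, if_pos rfl, one_smul]

/-- The isotypic component. -/
abbrev cp (M : DGM A) (k : K) : GD := Img (S.op M (S.e k))

/-- The module with given components. -/
abbrev piM (N : K → GD) : DGM A where
  toGD := gpi N
  act :=
    { toFun := fun r => LinearMap.pi fun k => S.χ k r • LinearMap.proj k
      map_one' := LinearMap.ext fun x => funext fun k => by simp
      map_mul' := fun r s => LinearMap.ext fun x => funext fun k => by simp [mul_smul]
      map_zero' := LinearMap.ext fun x => funext fun k => by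
        change S.χ k 0 • x k = 0
        rw [map_zero, zero_smul]
      map_add' := fun r s => LinearMap.ext fun x => funext fun k => by simp [add_smul]
      commutes' := fun c => LinearMap.ext fun x => funext fun k => by
        simp [Module.algebraMap_end_apply] }
  leib r x := funext fun k => by
    change (N k).d (S.χ k r • x k) = S.χ k (A.d r) • x k + S.χ k (A.sg r) • (N k).d (x k)
    rw [S.d_eq, S.sg_eq, map_zero, zero_smul, zero_add, map_smul]
  act_gr i m r x hr hx k _ := by
    change S.χ k r • x k ∈ (N k).gr (i + m)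
    by_cases h : i = 0
    · rw [h, zero_add]
      exact Submodule.smul_mem _ _ (hx k trivial)
    · rw [S.g0 i h r hr, map_zero, zero_smul]
      exact zero_mem _

theorem e_single (N : K → GD) (k : K) (x : (N k).V) :
    (S.piM N).act (S.e k) (Pi.single k x) = Pi.single k x := funext fun l => by
  change S.χ l (S.e k) • (Pi.single k x : ∀ l, (N l).V) l = (Pi.single k x : ∀ l, (N l).V) l
  rw [S.χ_e]
  split_ifs with h
  · exact one_smul _ _
  · rw [zero_smul, Pi.single_eq_of_ne h]

/-- The component of a product. -/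
def sgl (N : K → GD) (k : K) : GD.Hom (N k) (S.cp (S.piM N) k) :=
  Img.lift _ ⟨LinearMap.single ℂ (fun l => (N l).V) k, fun x => funext fun j =>
    (Pi.apply_single (fun j => (N j).d) (fun j => map_zero _) k x j).symm, fun m x hx j _ => by
      change (Pi.single k x : ∀ l, (N l).V) j ∈ (N j).gr m
      by_cases h : j = k
      · subst h
        rwa [Pi.single_eq_same]
      · rw [Pi.single_eq_of_ne h]
        exact zero_mem _⟩ (S.e_single N k)

theorem qis_sgl (N : K → GD) (k : K) : GD.Qis (S.sgl N k) :=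
  qis_of_inv _ (GD.Hom.comp (M := S.cp (S.piM N) k) (N := gpi N)
    ⟨LinearMap.proj k, fun _ => rfl, fun _ _ h => h k trivial⟩ (Img.incl _))
    (fun x => Pi.single_eq_same (M := fun l => (N l).V) k x) fun y => Subtype.ext (funext fun l => by
      change (Pi.single k (y.1 k) : ∀ l, (N l).V) l = y.1 l
      by_cases h : l = k
      · subst h
        exact Pi.single_eq_same _ _
      · have h1 : S.χ l (S.e k) • y.1 l = y.1 l := congrFun (Img.fix y) l
        rw [Pi.single_eq_of_ne h, ← h1, S.χ_e, if_neg h, zero_smul])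

/-- The decomposition of a module. -/
def dec (M : DGM A) : GD.Hom M.toGD (gpi (S.cp M)) :=
  ⟨LinearMap.pi fun k => (Img.proj _ (S.idem M k)).f,
    fun x => funext fun k => (Img.proj _ (S.idem M k)).comm x,
    fun m x hx k _ => (Img.proj _ (S.idem M k)).deg m x hx⟩

theorem qis_dec (M : DGM A) : GD.Qis (S.dec M) := by
  refine qis_of_bij _ (fun m x _ h => ?_) fun m y hy => ⟨∑ k, (y k).1,
    sum_mem fun k _ => hy k trivial, funext fun l => Subtype.ext ?_⟩
  · rw [← M.act_one x, ← S.sum_e, map_sum, LinearMap.sum_apply]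
    exact Finset.sum_eq_zero fun k _ => congrArg Subtype.val (congrFun h k)
  · change M.act (S.e l) (∑ k, (y k).1) = (y l).1
    rw [map_sum, Finset.sum_eq_single l]
    · exact Img.fix (y l)
    · intro k _ h
      have h1 : M.act (S.e k) (y k).1 = (y k).1 := Img.fix (y k)
      rw [← h1, S.act_e, S.χ_e, if_neg h, zero_smul]
    · exact fun h => absurd (Finset.mem_univ l) h

end Spl

/-- A space as a module over the exterior algebra without generators. -/
abbrev lm0 (N : GD) : LM 0 := ⟨N, Fin.elim0, fun i => i.elim0, fun i => i.elim0, fun i => i.elim0⟩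

variable {I : Type} [SmallCategory I] {D : DD I} {K : I → Type}

/-- The transition maps. -/
def rh (N : ∀ i, K i → GD) (i j : I) : GD.Hom (gpi (N i)) (gpi (N j)) := by
  classical exact if h : i = j then h ▸ GD.Hom.id _ else ⟨0, fun _ => (map_zero _).symm,
    fun _ _ _ => zero_mem _⟩

theorem rh_self (N : ∀ i, K i → GD) (i : I) (x : (gpi (N i)).V) : (rh N i i).f x = x := by
  rw [rh, dif_pos rfl]
  rfl

theorem sub_pi {κ : Type} (h : IsEmpty κ) {N : κ → GD} (x y : (gpi N).V) : x = y :=
  funext fun k => h.elim k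

variable [∀ i, Fintype (K i)] [∀ i, DecidableEq (K i)] (S : ∀ i, Spl (D.A i) (K i))
  (hI : ∀ (i j : I) (α : i ⟶ j), (∃ h : i = j, α = eqToHom h) ∨ IsEmpty (K j))

/-- The module with given components. -/
def piD (N : ∀ i, K i → GD) : DM D where
  M i := (S i).piM (N i)
  ρ {i j} _ := rh N i j
  ρ_act {i j} α r x := by
    rcases hI i j α with ⟨rfl, rfl⟩ | h
    · rw [rh_self, rh_self, eqToHom_refl, D.τ_id]
    · exact sub_pi h _ _
  ρ_id := rh_self N
  ρ_comp {i j k} α β x := by
    rcases hI j k β with ⟨rfl, -⟩ | h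
    · exact (rh_self N _ _).symm
    · exact sub_pi h _ _

/-- The component of a cochain. -/
def cpL (M M' : DM D) (n : ℤ) (j : Σ i, K i) : DM.Coch M M' n →ₗ[ℂ]
    (((S j.1).cp (M.M j.1) j.2).V →ₗ[ℂ] ((S j.1).cp (M'.M j.1) j.2).V) where
  toFun z := Img.lin _ ((z.f j.1).comp (Img.incl _).f) fun y => by
    have h := z.act j.1 ((S j.1).e j.2) y.1
    rw [(S j.1).sz_eq] at h
    exact h.symm.trans (congrArg (z.f j.1) (Img.fix y))
  map_add' _ _ := rfl
  map_smul' _ _ := rfl

/-- The components. -/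
def toV (j : Σ i, K i) : DGF (mdc D) (LMod 0) :=
  LMod.dgf (fun M => lm0 ((S j.1).cp (DM.M M j.1) j.2)) (fun {M M'} n => cpL S M M' n j)
    (fun n z m x hx => DM.Coch.deg z j.1 m x.1 hx) (fun _ _ i => i.elim0) (fun _ _ => rfl)
    (fun _ _ _ _ => rfl) (fun n z x => Subtype.ext (mdl_f rfl z j.1 x.1)) fun _ _ z h => mdl_ne h z

/-- The cochain with given components. -/
def piC {N N' : (Σ i, K i) → LM 0} (n : ℤ) (z : ∀ j, LM.Coch (N j) (N' j) n) :
    DM.Coch (piD S hI fun i k => (N ⟨i, k⟩).toGD) (piD S hI fun i k => (N' ⟨i, k⟩).toGD) n where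
  f i := LinearMap.pi fun k => (z ⟨i, k⟩).f.comp (LinearMap.proj k)
  deg i m x hx k _ := (z ⟨i, k⟩).deg m _ (hx k trivial)
  act i r x := funext fun k => by
    rw [(S i).sz_eq]
    exact map_smul (z ⟨i, k⟩).f _ _
  tr {i j} α x := by
    rcases hI i j α with ⟨rfl, rfl⟩ | h
    · exact (congrArg _ (rh_self (fun i k => (N ⟨i, k⟩).toGD) i x)).trans
        (rh_self (fun i k => (N' ⟨i, k⟩).toGD) i _).symm
    · exact sub_pi h _ _

/-- The module with given components. -/
def ofV : DGF (pi fun _ : Σ i, K i => LMod 0) (mdc D) :=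
  mkF (fun N => piD S hI fun i k => LM.toGD (N ⟨i, k⟩)) (fun n z => piC S hI n z)
    (fun _ _ _ _ _ => rfl) (fun _ _ _ _ _ => rfl) (fun _ _ _ => rfl) (fun _ _ _ _ _ => rfl)
    (fun m n z h i x => funext fun k => Co.dif_f h (z ⟨i, k⟩) (x k))
    fun m n z h => funext fun j => Co.dif_ne h (z j)

include S hI in
theorem sub_M (M : DM D) {i j : I} (α : i ⟶ j) (h : ¬ ∃ h : i = j, α = eqToHom h)
    (x y : (M.M j).V) : x = y := by
  have h1 := (hI i j α).resolve_left h
  have h2 : (1 : (D.A j).R) = 0 := (S j).sum_e.symm.trans (Finset.sum_eq_zero fun k _ => h1.elim k)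
  rw [← (M.M j).act_one x, ← (M.M j).act_one y, h2, map_zero]
  rfl

include S hI in
/-- **Modules over a diagram of split algebras.** -/
theorem eqv_pts : EQV (wm D) (wpi (Σ i, K i) WD.vec) := by
  refine ⟨piLift (toV S), ofV S hI, fun M M' a ha j => ?_, fun N N' a ha i => ?_, ?_, ?_⟩
  · exact Img.qis_map ((S j.1).idem _ j.2) ((S j.1).idem _ j.2) (mh a j.1) (mh_act a j.1 _) (ha j.1)
  · intro m
    constructor
    · rintro x hx hd ⟨y, hy, e⟩
      choose w hw using fun k => (ha ⟨i, k⟩ m).1 (x k) (hx k trivial) (congrFun hd k)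
        ⟨y k, hy k trivial, congrFun e k⟩
      exact ⟨w, fun k _ => (hw k).1, funext fun k => (hw k).2⟩
    · intro y hy hd
      choose w h1 h2 w' h3 using fun k => (ha ⟨i, k⟩ m).2 (y k) (hy k trivial) (congrFun hd k)
      exact ⟨w, fun k _ => h1 k, funext h2, w', fun k _ => (h3 k).1, funext fun k => (h3 k).2⟩
  · refine (NatW.zig ⟨mnat (F := 𝟭 _) (G := (piLift (toV S)).z0 ⋙ (ofV S hI).z0)
      (fun M => mmk (F := mo M) (fun i => (S i).dec ((mo M).M i))
        (fun i r x => funext fun k => Subtype.ext ((S i).e_act _ k r x)) fun {i j} α x => ?_)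
      fun M M' a i x => funext fun k => Subtype.ext (mh_act a i _ x).symm,
      fun M i => (S i).qis_dec _⟩).symm
    rcases hI i j α with ⟨rfl, rfl⟩ | h
    · exact (congrArg _ ((mo M).ρ_id i x)).trans
        (rh_self (fun i k => (S i).cp ((mo M).M i) k) i _).symm
    · exact sub_pi h _ _
  · refine (natW_pi (F := fun j => (ev (fun _ : Σ i, K i => LMod 0) j).z0)
      (G := fun j => ((ofV S hI).comp (toV S j)).z0) fun j => ?_).zig.symm
    refine LMod.natW (fun N => ⟨(S j.1).sgl (fun k => LM.toGD (N ⟨j.1, k⟩)) j.2, fun i => i.elim0⟩)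
      (fun {N N'} z _ x => Subtype.ext (funext fun l => ?_)) fun N => (S j.1).qis_sgl _ _
    exact (Pi.apply_single (fun l => (z ⟨j.1, l⟩ : LM.Coch _ _ 0).f) (fun l => map_zero _) j.2 x
      l).symm

end

end Vale.Agent.P286EP
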