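import Vale.Agent.P286EP.Goods
import Vale.Agent.P286EB.QP

/-!
# The charts for `SL_2`
-/

set_option linter.all false

namespace Vale.Agent.P286EP

open CategoryTheory Matrix Polynomial Vale.Agent.P286 Vale.Agent.P286E Vale.Agent.P286EB
open Vale.Agent.P286ET (Ix)

noncomputable section

variable {A B : Type} [CommRing A] [Algebra ℂ A] [CommRing B] [Algebra ℂ B] {E : Ell} (e : Rt E)

/-- The polynomial functions on the charts. -/
def pf : ∀ i : Ix, ℂ[X] →ₐ[ℂ] (ES e).C i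
  | .a => AlgHom.id ℂ ℂ[X]
  | .b => IsScalarTower.toAlgHom ℂ ℂ[X] (Localization.Away e.g)
  | .n => E.ka

theorem f_pf (i : Ix) : (ES e).f i = pf e i E.f := by cases i <;> rfl

theorem hom_C (x : ℂ[X] →ₐ[ℂ] A) (c : ℂ) : x (C c) = algebraMap ℂ A c := x.commutes c

theorem hom_f (x : ℂ[X] →ₐ[ℂ] A) : x E.f = fv E (x X) := by
  simp only [Ell.f, fv, map_add, map_mul, map_pow, hom_C]

theorem hom_g (x : ℂ[X] →ₐ[ℂ] A) : x e.g = gv e (x X) := by
  simp only [Rt.g, gv, ea, map_add, map_mul, map_pow, hom_C]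

theorem hom_r (x : ℂ[X] →ₐ[ℂ] A) : x (X - C e.e) = x X - ea e A := by
  simp only [ea, map_sub, hom_C]

theorem away_ext (p : ℂ[X]) {x y : Localization.Away p →ₐ[ℂ] A}
    (h : ∀ q : ℂ[X], x (algebraMap ℂ[X] _ q) = y (algebraMap ℂ[X] _ q)) : x = y :=
  AlgHom.coe_ringHom_injective (IsLocalization.ringHom_ext (Submonoid.powers p) (RingHom.ext h))

theorem x_f (i : Ix) (x : (ES e).C i →ₐ[ℂ] A) : x ((ES e).f i) = fv E (x (pf e i X)) :=
  (congrArg x (f_pf e i)).trans (hom_f (x.comp (pf e i)))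

theorem x_ub (x : (ES e).C .b →ₐ[ℂ] A) : IsUnit (gv e (x (pf e .b X))) :=
  hom_g e (x.comp (pf e .b)) ▸
    (IsLocalization.Away.algebraMap_isUnit (S := Localization.Away e.g) e.g).map x

theorem x_un (x : (ES e).C .n →ₐ[ℂ] A) : IsUnit (fv E (x (pf e .n X))) :=
  hom_f (x.comp (pf e .n)) ▸ E.f_unit.map x

theorem x_w (x : E.Cn →ₐ[ℂ] A) : x e.w = Ring.inverse (x (E.ka X) - ea e A) := by
  have h := congrArg x e.mul_w
  rw [map_mul, map_one] at h
  have h' : x (E.ka (X - C e.e)) = x (E.ka X) - ea e A := hom_r e (x.comp E.ka)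
  rw [h'] at h
  exact (Ring.eq_mul_inverse_iff_mul_eq _ _ _ (IsUnit.of_mul_eq_one _ h)).2
    ((mul_comm _ _).trans h) |>.trans (one_mul _)

theorem x_ext (i : Ix) {x y : (ES e).C i →ₐ[ℂ] A} (h : x (pf e i X) = y (pf e i X)) : x = y := by
  have h' : x.comp (pf e i) = y.comp (pf e i) := Polynomial.algHom_ext h
  cases i
  · exact h'
  · exact away_ext e.g (AlgHom.congr_fun h')
  · exact away_ext E.f (AlgHom.congr_fun h')

theorem x_kx {i j : Ix} (h : i ≤ j) (x : (ES e).C j →ₐ[ℂ] A) :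
    x ((ES e).κ i j h (pf e i X)) = kx e i j (x (pf e j X)) := by
  rcases h with rfl | rfl <;> cases i <;> try rfl
  have h1 : x (e.kb (algebraMap ℂ[X] _ X)) = _ := congrArg x (e.kb_of X)
  refine h1.trans ?_
  have h2 := x_w e (A := A) x
  rw [aeval_X, Rt.u]
  exact (map_add (show E.Cn →ₐ[ℂ] A from x) _ _).trans (congrArg₂ (· + ·) (AlgHom.commutes _ _)
    ((map_mul (show E.Cn →ₐ[ℂ] A from x) _ _).trans (congrArg₂ (· * ·) (AlgHom.commutes _ _) h2)))

theorem x_c (x : E.Cn →ₐ[ℂ] A) : x (ES e).c = kc e .b .n (x (E.ka X)) := by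
  change x (-(algebraMap ℂ E.Cn e.d * e.w ^ 2)) = _
  rw [map_neg, map_mul, map_pow, x_w, AlgHom.commutes]
  rfl

theorem x_kc (i j : Ix) (x : (ES e).C j →ₐ[ℂ] A) :
    x ((ES e).u (ES e).c i j) = kc e i j (x (pf e j X)) := by
  cases i <;> cases j <;> first | exact map_one x | exact x_c e x

theorem x_kr (i j : Ix) (x : (ES e).C j →ₐ[ℂ] A) :
    x ((ES e).u (ES e).r i j) = kr e i j (x (pf e j X)) := by
  cases i <;> cases j <;> first | exact map_one x | exact hom_r e (x.comp (pf e .n))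

theorem lift_away (p : ℂ[X]) (x : A) (h : IsUnit (aeval x p)) :
    ∃ y : Localization.Away p →ₐ[ℂ] A, y (algebraMap ℂ[X] _ X) = x :=
  ⟨IsLocalization.liftAlgHom (M := Submonoid.powers p) (f := aeval x) (by
    rintro ⟨_, n, rfl⟩
    simp only [map_pow]
    exact h.pow n), by simp⟩

theorem x_lift (i : Ix) (x : A) (hb : i = .b → IsUnit (gv e x)) (hn : i = .n → IsUnit (fv E x)) :
    ∃ y : (ES e).C i →ₐ[ℂ] A, y (pf e i X) = x := by
  cases i
  · exact ⟨aeval x, aeval_X x⟩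
  · exact lift_away e.g x (by rw [hom_g, aeval_X]; exact hb rfl)
  · exact lift_away E.f x (by rw [hom_f, aeval_X]; exact hn rfl)

theorem prj_two {ξ : Fin 3 → A} {π : Matrix (Fin SL2.N) (Fin SL2.N) A} (h : Prj SL2 ξ π) :
    π = 0 := by
  have h2 : IsUnit (2 : A) :=
    map_ofNat (algebraMap ℂ A) 2 ▸ (IsUnit.mk0 (2 : ℂ) two_ne_zero).map (algebraMap ℂ A)
  have a := h.adj
  have t := h.tr
  revert a t
  change ∀ _ : (show Matrix (Fin 2) (Fin 2) A from π)ᵀ * (!![0, 1; -1, 0] :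
    Matrix (Fin 2) (Fin 2) ℂ).map (algebraMap ℂ A) = (!![0, 1; -1, 0] :
    Matrix (Fin 2) (Fin 2) ℂ).map (algebraMap ℂ A) * (show Matrix (Fin 2) (Fin 2) A from π),
    trace (show Matrix (Fin 2) (Fin 2) A from π) = ((2 : ℕ) : A) - 2 →
    (show Matrix (Fin 2) (Fin 2) A from π) = 0
  generalize (show Matrix (Fin 2) (Fin 2) A from π) = p
  intro a t
  have a0 := congrFun (congrFun a 0) 0
  have a1 := congrFun (congrFun a 0) 1
  have a3 := congrFun (congrFun a 1) 1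
  simp [Matrix.mul_apply, Fin.sum_univ_two, trace_fin_two] at a0 a1 a3 t
  have b0 : p 1 0 = 0 := h2.mul_left_cancel (by linear_combination -a0)
  have b1 : p 0 0 = 0 := h2.mul_left_cancel (by linear_combination t + a1)
  have b2 : p 0 1 = 0 := h2.mul_left_cancel (by linear_combination a3)
  have b3 : p 1 1 = 0 := by rw [← a1, b1]
  ext i j
  fin_cases i <;> fin_cases j <;> assumption

theorem prj_zero (ξ : Fin 3 → A) : Prj SL2 ξ (0 : Matrix (Fin SL2.N) (Fin SL2.N) A) :=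
  ⟨by rw [transpose_zero, Matrix.zero_mul, Matrix.mul_zero],
    (trace_zero _ _).trans (sub_self ((2 : ℕ) : A)).symm, fun _ _ _ _ => rfl, Matrix.mul_zero _⟩

/-- The projector for `SL_2`. -/
def pi2 (A : Type) [CommRing A] : Ix → Matrix (Fin SL2.N) (Fin SL2.N) A
  | .b => 1
  | _ => 0

theorem pi2_ne {i : Ix} (h : i ≠ .b) : pi2 A i = 0 := by
  cases i
  · rfl
  · exact absurd rfl h
  · rfl

/-- The functor on objects. -/
def ob2 (Q : QO (D1 e)) : PO e SL2 where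
  i := Q.i
  A := Q.A
  x := Q.x (pf e Q.i X)
  ξ := Q.Y
  π := pi2 Q.A.R Q.i
  pt := by
    obtain ⟨i, A, x, Y, sq⟩ := Q
    refine ⟨sq.trans (x_f e i x), ?_, ?_, fun h => ?_⟩
    · rintro rfl
      exact ⟨x_ub e x, rfl⟩
    · rintro rfl
      exact x_un e x
    · rw [pi2_ne h]
      exact prj_zero Y

theorem pi_zero {P Q : PO e SL2} (h : P.i ≤ Q.i) (φ : P.A.Hm Q.A)
    (g : Matrix (Fin SL2.N) (Fin SL2.N) Q.A.R) (hi : P.i ≠ .b) : g * P.π.map φ = Q.π * g := by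
  rw [prj_two (P.pt.pr hi), prj_two (Q.pt.pr (ne_b h hi)), Matrix.map_zero _ (map_zero φ),
    Matrix.mul_zero, Matrix.zero_mul]

/-- The functor on morphisms. -/
def map2 {P Q : QO (D1 e)} (u : QM SL2 P Q) : PM (ob2 e P) (ob2 e Q) where
  le := leOfHom u.α
  φ := u.φ
  h := u.h
  pt := u.pt
  hx := (u.hx _).trans (x_kx e (leOfHom u.α) Q.x)
  hY := u.hY.trans (congrArg (· • (SL2.ht Q.Y * u.h)) (x_kc e P.i Q.i Q.x))
  hπ := pi_zero e (P := ob2 e P) (Q := ob2 e Q) (leOfHom u.α) u.φ u.h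

/-- The preimage of a morphism. -/
def pre2 {P Q : QO (D1 e)} (v : PM (ob2 e P) (ob2 e Q)) : QM SL2 P Q where
  α := homOfLE v.le
  φ := v.φ
  h := v.h
  pt := v.pt
  hx z := by
    have h : P.i ≤ Q.i := v.le
    let φ : P.A.R →ₐ[ℂ] Q.A.R := v.φ
    let x : (ES e).C P.i →ₐ[ℂ] P.A.R := P.x
    let y : (ES e).C Q.i →ₐ[ℂ] Q.A.R := Q.x
    exact AlgHom.congr_fun (x_ext e P.i (x := φ.comp x) (y := y.comp ((ES e).κ _ _ h))
      (v.hx.trans (x_kx e h y).symm)) z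
  hY := v.hY.trans (congrArg (· • (SL2.ht (ob2 e Q).ξ * v.h)) (x_kc e P.i Q.i Q.x).symm)

/-- An isomorphism of two objects with the same data. -/
def same {i : Ix} {A : SmAlg} {x x' : A.R} {ξ : Fin 3 → A.R}
    {π π' : Matrix (Fin SL2.N) (Fin SL2.N) A.R} (p : Pt e SL2 i x ξ π) (p' : Pt e SL2 i x' ξ π')
    (h : x = x') : PM (⟨i, A, x, ξ, π, p⟩ : PO e SL2) ⟨i, A, x', ξ, π', p'⟩ where
  le := le_rfl
  φ := AlgHom.id ℂ _
  h := 1
  pt := Grp.Pt.one SL2
  hx := h.trans (kx_self e _ _).symm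
  hY := by rw [kc_self, one_smul, Matrix.one_mul, Matrix.mul_one]; rfl
  hπ := pi_zero e (P := ⟨i, A, x, ξ, π, p⟩) (Q := ⟨i, A, x', ξ, π', p'⟩) le_rfl _ _

theorem one_map {N : ℕ} : (1 : Matrix (Fin N) (Fin N) A) * (1 : Matrix (Fin N) (Fin N) A).map
    (AlgHom.id ℂ A) = 1 := Matrix.one_mul _

/-- The equivalence. -/
def eqF2 (s : ℂ) : EqF (QP e SL2 s) (QS (D1 e) SL2 s) where
  ob := ob2 e
  map u := map2 e u
  map_id _ := rfl
  map_comp _ _ := rfl
  full P Q v := ⟨pre2 e v, rfl⟩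
  faith P Q u v h := QM.ext (Subsingleton.elim _ _) (congrArg PM.φ h) (congrArg PM.h h)
  ess Z := by
    obtain ⟨i, A, x, ξ, π, p⟩ := Z
    obtain ⟨y, hy⟩ := x_lift e i x (fun h => (p.ub h).1) p.un
    let Q : QO (D1 e) := ⟨i, A, y, ξ, p.sq.trans (by rw [← hy]; exact (x_f e i y).symm)⟩
    exact ⟨Q, same e (ob2 e Q).pt p hy, same e p (ob2 e Q).pt hy.symm, PM.ext rfl one_map,
      PM.ext rfl one_map⟩
  i _ := AlgEquiv.refl
  nat _ _ := rfl

/-- **The charts for `SL_2`.** -/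
theorem qp2 : QP2 := fun E e s =>
  (eqF2 e s).eqv_one (good_QP e SL2 s) (good_QS _ _ s) (fun _ => rfl) (fun _ => rfl) 1
    ((one_mul _).symm.trans (congrArg (· * s) Nat.cast_one.symm)) fun P Q u =>
      ⟨1, by rw [map_one, one_mul, pow_one]; exact (x_kr e (QO.i P) (QO.i Q) (QO.x Q)).symm⟩

end

end Vale.Agent.P286EP
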