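import Vale.Agent.P286EP.EInv
import Vale.Agent.P286EH.Gc

/-!
# Equivalences of test categories, with a change of the twist
-/

set_option linter.all false

namespace Vale.Agent.P286EP

open CategoryTheory Vale.Agent.P286 Vale.Agent.P286.St Vale.Agent.P286.H847
  Vale.Agent.P286.H353 Vale.Agent.P286EH Vale.Agent.P286E
open Vale.Agent.P286ER (Good)

noncomputable section

section Cj

variable {A B : Type} [CommRing A] [Algebra ℂ A] [CommRing B] [Algebra ℂ B] (e : A ≃ₐ[ℂ] B)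

theorem cj_ext {v w : Derivation ℂ B B} (h : ∀ a, v (e a) = w (e a)) : v = w :=
  Derivation.ext fun b => by
    obtain ⟨a, rfl⟩ := e.surjective b
    exact h a

theorem cj_add (v w : Derivation ℂ A A) : cj e (v + w) = cj e v + cj e w := cj_ext e fun a => by
  rw [Derivation.add_apply, cj_e, cj_e, cj_e, Derivation.add_apply, map_add]

theorem cj_smul (c : A) (v : Derivation ℂ A A) : cj e (c • v) = e c • cj e v :=
  cj_ext e fun a => by
    rw [Derivation.smul_apply, cj_e, cj_e, Derivation.smul_apply, smul_eq_mul, map_mul, smul_eq_mul]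

theorem cj_lie (v w : Derivation ℂ A A) : cj e ⁅v, w⁆ = ⁅cj e v, cj e w⁆ := cj_ext e fun a => by
  rw [Derivation.commutator_apply, cj_e, cj_e, cj_e, cj_e, cj_e, Derivation.commutator_apply,
    map_sub]

end Cj

variable {S T : TSite}

namespace IsEqv

variable {E : EtF S T} (H : IsEqv E)

/-- The natural arrows in `S`. -/
def unS : Un E H.inv where
  ι := H.be
  f_i Z a := (H.i_je Z a).symm
  nat φ := Sim.of_eq (H.be_map φ).symm
  unit Z := H.gS.unit _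
  b Z v := by
    change S.dl (H.be Z) * (E.b _ (cj (H.je Z) v) + E.i _ (H.b Z v)) =
      S.s • H.W Z v (S.dl (H.be Z))
    rw [i_b, add_sub_cancel, mul_smul_comm, mul_dlg _ (H.gS.unit _)]

theorem f_pre (X : T.C) (a : T.R X) :
    T.f (H.pre (H.be (E.ob X))) a = H.je (E.ob X) (E.i X a) := (H.bij _).1 (by
  rw [← E.nat, map_pre, i_je])

/-- The natural arrows in `T`. -/
def unT : Un H.inv E where
  ι X := H.pre (H.be (E.ob X))
  f_i := H.f_pre
  nat {X Y} φ := H.faith _ _ _ _ (by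
    change E.map (φ ≫ H.pre (H.be (E.ob Y))) = E.map (H.pre (H.be (E.ob X)) ≫ H.map (E.map φ))
    rw [H.map_comp, H.map_comp, map_pre, map_pre]
    exact (H.be_map (E.map φ)).symm)
  unit X := H.gT.unit _
  b X v := by
    change T.dl (H.pre (H.be (E.ob X))) * (H.b _ (E.lf X v) + H.je _ (E.b X v)) =
      T.s • cj (H.je _) (E.lf X v) (T.dl (H.pre (H.be (E.ob X))))
    have h1 := btr E (H.pre (H.be (E.ob X))) (H.gT.unit _) (cj (H.je _) (E.lf X v))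
      (fun _ : Fin 1 => 1) (fun _ => v) fun a => by
        rw [Fin.sum_univ_one, one_mul, f_pre, f_pre, cj_e, E.lf_i]
    rw [Fin.sum_univ_one, map_one, one_mul, map_pre] at h1
    rw [← mul_dlg (cj _ _) (H.gT.unit _), ← mul_smul_comm]
    refine congrArg _ ((H.bij _).1 ?_)
    rw [map_add, i_b, i_je, map_smul, ← dlg_map (E.i _) _ _ (H.gT.unit _) (E.lf_i _ _ _), W]
    simp only [Algebra.smul_def] at h1 ⊢
    linear_combination (-1 : S.R (E.ob (H.ob (E.ob X)))) * h1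

include H in
/-- **An etale functor which is an equivalence.** -/
theorem eqv : EQV (WD.st S) (WD.st T) :=
  eqv_push E H.inv (E.isPO_of_bij H.bij) (H.inv.isPO_of_bij fun Z => (H.je Z).bijective) H.unS
    H.unT H.bij_be fun X => by
      have h : (T.f (H.unT.ι X) : T.R X → _) = H.je (E.ob X) ∘ E.i X := funext (H.f_pre X)
      rw [h]
      exact (H.je _).bijective.comp (H.bij X)

end IsEqv

/-- An equivalence from the test objects of `T` to the test objects of `S` which does not change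
the algebras. -/
structure EqF (S T : TSite) where
  ob : T.C → S.C
  map : ∀ {X Y : T.C}, (X ⟶ Y) → (ob X ⟶ ob Y)
  map_id : ∀ X, map (𝟙 X) = 𝟙 (ob X)
  map_comp : ∀ {X Y Z : T.C} (φ : X ⟶ Y) (ψ : Y ⟶ Z), map (φ ≫ ψ) = map φ ≫ map ψ
  full : ∀ (X Y : T.C) (ψ : ob X ⟶ ob Y), ∃ φ : X ⟶ Y, map φ = ψ
  faith : ∀ (X Y : T.C) (φ φ' : X ⟶ Y), map φ = map φ' → φ = φ'
  ess : ∀ Z : S.C, ∃ (X : T.C) (α : ob X ⟶ Z) (β : Z ⟶ ob X), α ≫ β = 𝟙 _ ∧ β ≫ α = 𝟙 _
  i : ∀ X, T.R X ≃ₐ[ℂ] S.R (ob X)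
  nat : ∀ {X Y : T.C} (φ : X ⟶ Y) (a : T.R X), S.f (map φ) (i X a) = i Y (T.f φ a)

namespace EqF

variable (Φ : EqF S T)

/-- The comparison of the twists, in logarithmic form. -/
def Gau (κ : ℂ) (u : ∀ X, S.R (Φ.ob X)) : Prop :=
  ∀ (X Y : T.C) (φ : X ⟶ Y) (w : (S.A (Φ.ob Y)).Der),
    S.s • dlg w (S.dl (Φ.map φ)) + κ • (dlg w (S.f (Φ.map φ) (u X)) - dlg w (u Y)) =
      T.s • dlg w (Φ.i Y (T.dl φ))

theorem unr (X : T.C) : Unr (Φ.i X : T.R X →ₐ[ℂ] S.R (Φ.ob X)) := unr_of_surj (Φ.i X).surjective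

/-- The etale functor. -/
def etF (hS : Good S) (hT : Good T) (cT : ∀ X, T.cen X = ∅) {κ : ℂ} {u : ∀ X, S.R (Φ.ob X)}
    (hu : ∀ X, IsUnit (u X)) (h : Φ.Gau κ u) : EtF S T where
  ob := Φ.ob
  map := Φ.map
  map_id X := Sim.of_eq (Φ.map_id X)
  map_comp φ ψ := Sim.of_eq (Φ.map_comp φ ψ)
  cen X φ h := absurd h (by rw [cT]; exact fun h => h)
  i X := Φ.i X
  unr := Φ.unr
  lf X v := cj (Φ.i X) v
  lf_i X v a := cj_e _ v a
  nat := Φ.nat
  unit _ := hS.unit _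
  b X v := κ • dlg (cj (Φ.i X) v) (u X)
  b_add X v w := by rw [cj_add, dlg_add, smul_add]
  b_smul X a v := by
    rw [cj_smul, dlg_smul, mul_smul_comm]
    rfl
  b_lie X v w := by
    rw [cj_lie, dlg_lie _ _ (hu X), Derivation.map_smul, Derivation.map_smul, smul_sub]
  b_tr {X Y} φ w k c v e := by
    refine Eq.trans ((btr_iff (cj (Φ.i Y) w) ((hT.unit φ).map (Φ.i Y)) (hS.unit _) S.s T.s).2
      ?_) ?_
    · have h1 := dlg_rel (S.f (Φ.map φ)) (cj (Φ.i Y) w) (fun j => Φ.i Y (c j))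
        (fun j => cj (Φ.i X) (v j)) (hu X) (by
          obtain ⟨a, ha⟩ := (Φ.i X).surjective (u X)
          simp only [← ha, Φ.nat, cj_e, e, map_sum, map_mul])
      have h2 := h X Y φ (cj (Φ.i Y) w)
      rw [h1] at h2
      simp only [map_smul, mul_smul_comm, ← Finset.smul_sum]
      change κ • _ - κ • ∑ j, Φ.i Y (c j) * _ = _
      simp only [Algebra.smul_def] at h2 ⊢
      linear_combination (-1 : S.R (Φ.ob Y)) * h2
    · rw [cj_e]
      rfl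

/-- **Change of the test category and of the twist.** -/
theorem eqv (hS : Good S) (hT : Good T) (cS : ∀ Z, S.cen Z = ∅) (cT : ∀ X, T.cen X = ∅) (κ : ℂ)
    (u : ∀ X, S.R (Φ.ob X)) (hu : ∀ X, IsUnit (u X)) (h : Φ.Gau κ u) :
    EQV (WD.st S) (WD.st T) :=
  IsEqv.eqv (E := Φ.etF hS hT cT hu h) ⟨fun X => (Φ.i X).bijective, Φ.map_id, Φ.map_comp, Φ.full,
    fun X Y φ φ' e => Sim.of_eq (Φ.faith X Y φ φ' e), Φ.ess, cS, hS, hT⟩

/-- The twists are compared by powers: `δ_S ^ m * δ_T ^ p ~ δ_T ^ q`. -/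
theorem eqv_gen (hS : Good S) (hT : Good T) (cS : ∀ Z, S.cen Z = ∅) (cT : ∀ X, T.cen X = ∅)
    (m p q : ℕ) (κ : ℂ) (hs : S.s = m * κ) (ht : T.s = (q - p) * κ) (u : ∀ X, S.R (Φ.ob X))
    (hu : ∀ X, IsUnit (u X)) (h : ∀ (X Y : T.C) (φ : X ⟶ Y), ∃ k : S.R (Φ.ob Y),
      (∀ w : (S.A (Φ.ob Y)).Der, w k = 0) ∧
      S.dl (Φ.map φ) ^ m * S.f (Φ.map φ) (u X) * Φ.i Y (T.dl φ) ^ p =
        k * u Y * Φ.i Y (T.dl φ) ^ q) : EQV (WD.st S) (WD.st T) := by
  refine Φ.eqv hS hT cS cT κ u hu fun X Y φ w => ?_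
  obtain ⟨k, hk, e⟩ := h X Y φ
  have u1 := hS.unit (Φ.map φ)
  have u2 := (hu X).map (S.f (Φ.map φ))
  have u3 := (hT.unit φ).map (Φ.i Y)
  have u4 : IsUnit k := isUnit_of_mul_isUnit_left (isUnit_of_mul_isUnit_left
    (e ▸ ((u1.pow m).mul u2).mul (u3.pow p)))
  have e' := congrArg (dlg w) e
  rw [dlg_mul w ((u1.pow m).mul u2) (u3.pow p), dlg_mul w (u1.pow m) u2,
    dlg_mul w (u4.mul (hu Y)) (u3.pow q), dlg_mul w u4 (hu Y), dlg_const w (hk w), dlg_pow w u1,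
    dlg_pow w u3, dlg_pow w u3] at e'
  rw [hs, ht]
  simp only [Algebra.smul_def, map_mul, map_sub] at e' ⊢
  linear_combination algebraMap ℂ (S.R (Φ.ob Y)) κ * e'

/-- The twists are compared by `δ_S ~ δ_T ^ n`. -/
theorem eqv_pow (hS : Good S) (hT : Good T) (cS : ∀ Z, S.cen Z = ∅) (cT : ∀ X, T.cen X = ∅)
    (n : ℕ) (hs : T.s = n * S.s) (u : ∀ X, S.R (Φ.ob X)) (hu : ∀ X, IsUnit (u X))
    (h : ∀ (X Y : T.C) (φ : X ⟶ Y), ∃ k : S.R (Φ.ob Y), (∀ w : (S.A (Φ.ob Y)).Der, w k = 0) ∧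
      S.dl (Φ.map φ) * S.f (Φ.map φ) (u X) = k * u Y * Φ.i Y (T.dl φ) ^ n) :
    EQV (WD.st S) (WD.st T) :=
  Φ.eqv_gen hS hT cS cT 1 0 n S.s (by simp) (by simp [hs]) u hu fun X Y φ => by
    simpa only [pow_one, pow_zero, mul_one] using h X Y φ

/-- The case `δ_S = k δ_T ^ n`. -/
theorem eqv_one (hS : Good S) (hT : Good T) (cS : ∀ Z, S.cen Z = ∅) (cT : ∀ X, T.cen X = ∅)
    (n : ℕ) (hs : T.s = n * S.s)
    (h : ∀ (X Y : T.C) (φ : X ⟶ Y), ∃ k : ℂ,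
      S.dl (Φ.map φ) = algebraMap ℂ _ k * Φ.i Y (T.dl φ) ^ n) : EQV (WD.st S) (WD.st T) :=
  Φ.eqv_pow hS hT cS cT n hs (fun _ => 1) (fun _ => isUnit_one) fun X Y φ =>
    let ⟨k, e⟩ := h X Y φ
    ⟨algebraMap ℂ _ k, fun w => w.map_algebraMap k, by rw [map_one, mul_one, mul_one, e]⟩

end EqF

end

end Vale.Agent.P286EP
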