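import Vale.Agent.P286EP.Pts
import Vale.Agent.P286EK.Cart
import Vale.Agent.P286EU.Br1
import Vale.Agent.P286EU.Sv
import Vale.Agent.P286EJ.Lat2

/-!
# Modules over the four branch points
-/

set_option linter.all false

namespace Vale.Agent.P286EP

open CategoryTheory Polynomial Vale.Agent.P286 Vale.Agent.P286.H847 Vale.Agent.P286.H353
  Vale.Agent.P286EK Vale.Agent.P286E Vale.Agent.P286EG
open Vale.Agent.P286ET (IsAway Ix)
open Vale.Agent.P286EU (db_loc frl_away esv)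

noncomputable section

universe u v

theorem wfull_all (X : WD.{u, v}) {P : X.C.Obj → Prop} (h : ∀ M, P M) : EQV (wfull X P) X :=
  Eq2.of_eq (DGF.incl X.C P) ((DGF.id X.C).lift h) (fun _ _ _ ha => ha) (fun _ _ _ ha => ha) rfl rfl

theorem db_zero {A B : Type} [CommRing A] [Algebra ℂ A] [CommRing B] [Algebra ℂ B]
    {κ : A →ₐ[ℂ] B} {σ : A} (h : IsAway κ σ) {M : AG A} {N : AG B} {t : GD.Hom M.G N.G}
    (ht : Sl κ.toRingHom M N t) (hM : ∀ x, M.fn σ x = 0) (hN : ∀ y y' : N.G.V, y = y') :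
    DB κ.toRingHom M N t := by
  refine (db_loc (frl_away h) ht).2 fun m => ⟨fun x _ _ _ => ⟨1, 0, zero_mem _, ?_⟩,
    fun y _ _ => ⟨0, 0, zero_mem _, map_zero _, 0, zero_mem _, hN _ _⟩⟩
  rw [map_zero, pow_one]
  exact funext fun l => (hM _).symm

/-- The zero scheme of `f` is a finite set of reduced points. -/
structure Zs {C : Type} [CommRing C] [Algebra ℂ C] (f : C) (K : Type) [DecidableEq K] where
  χ : K → (C →ₐ[ℂ] ℂ)
  ε : K → C
  χ_f : ∀ k, χ k f = 0
  χ_ε : ∀ k l, χ k (ε l) = if k = l then 1 else 0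
  dvd : ∀ z, (∀ k, χ k z = 0) → f ∣ z

section

variable {C : Type} [CommRing C] [Algebra ℂ C] {f : C} {K : Type} [Fintype K] [DecidableEq K]
  (Z : Zs f K) {A : DGA} (π : C →ₐ[ℂ] A.R) (hs : Function.Surjective π)
  (hk : ∀ z, π z = 0 ↔ f ∣ z) (hg : ∀ z, π z ∈ A.gr 0)

include hk in
theorem Zs.ker_le (k : K) : RingHom.ker π.toRingHom ≤ RingHom.ker (Z.χ k).toRingHom := by
  intro z hz
  obtain ⟨w, rfl⟩ := (hk z).1 hz
  exact (map_mul (Z.χ k) f w).trans (by rw [Z.χ_f, zero_mul])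

/-- The characters of the quotient. -/
def Zs.ch (k : K) : A.R →ₐ[ℂ] ℂ :=
  { π.toRingHom.liftOfSurjective hs ⟨(Z.χ k).toRingHom, Z.ker_le π hk k⟩ with
    commutes' := fun c => (congrArg _ (π.commutes c).symm).trans
      ((π.toRingHom.liftOfSurjective_comp_apply hs ⟨(Z.χ k).toRingHom, Z.ker_le π hk k⟩ _).trans
        ((Z.χ k).commutes c)) }

theorem Zs.ch_π (k : K) (z : C) : Z.ch π hs hk k (π z) = Z.χ k z :=
  π.toRingHom.liftOfSurjective_comp_apply hs ⟨(Z.χ k).toRingHom, Z.ker_le π hk k⟩ z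

include hk in
theorem Zs.mul_ε (k : K) (z : C) : π (z * Z.ε k) = Z.χ k z • π (Z.ε k) := by
  rw [← map_smul, ← sub_eq_zero, ← map_sub, hk]
  refine Z.dvd _ fun l => ?_
  rw [map_sub, map_mul, map_smul, Z.χ_ε]
  split_ifs with h
  · rw [h, smul_eq_mul, sub_self]
  · rw [mul_zero, smul_zero, sub_self]

/-- The splitting of the quotient. -/
def Zs.spl : Spl A K where
  χ := Z.ch π hs hk
  e k := π (Z.ε k)
  mul_e k r := by
    obtain ⟨z, rfl⟩ := hs r
    rw [← map_mul, Z.mul_ε π hk, Z.ch_π]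
  e_mul k r := by
    obtain ⟨z, rfl⟩ := hs r
    rw [← map_mul, mul_comm, Z.mul_ε π hk, Z.ch_π]
  χ_e k l := by rw [Z.ch_π, Z.χ_ε]
  sum_e := by
    rw [← map_sum, ← map_one π, ← sub_eq_zero, ← map_sub, hk]
    refine Z.dvd _ fun l => ?_
    simp [Z.χ_ε]
  g0 m hm r hr := by
    obtain ⟨z, rfl⟩ := hs r
    exact Submodule.disjoint_def.1
      (A.int.submodule_iSupIndep.pairwiseDisjoint hm) _ hr (hg z)

end

/-- The base rings of a chart datum. -/
abbrev rdOf {I : Type} [SmallCategory I] (D : CD I) (sm : ∀ i, Algebra.Smooth ℂ (D.C i)) : RD I :=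
  { C := D.C, sm := sm, κ := D.κ }

variable {E : Ell} (e : Rt E)

theorem ex_za (E : Ell) : Nonempty (Zs E.f (Fin 3)) := by
  obtain ⟨r, hi, h1, h2, h3⟩ := P286EJ.exists_roots E
  have hf : E.f = ∏ k, (X - C (r k)) := by
    have e1 : C (r 0) + C (r 1) + C (r 2) = (0 : ℂ[X]) := by
      rw [← map_add, ← map_add, h1, map_zero]
    have e2 := congrArg (C : ℂ → ℂ[X]) h2
    have e3 := congrArg (C : ℂ → ℂ[X]) h3
    simp only [map_add, map_mul, map_neg] at e2 e3
    rw [Fin.prod_univ_three, Ell.f]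
    linear_combination X ^ 2 * e1 - X * e2 + e3
  refine ⟨⟨fun k => aeval (r k), fun k => Lagrange.basis Finset.univ r k, fun k => ?_,
    fun k l => ?_, fun z hz => ?_⟩⟩
  · rw [hf, map_prod]
    exact Finset.prod_eq_zero (Finset.mem_univ k) (by simp)
  · rw [coe_aeval_eq_eval]
    split_ifs with h
    · exact h ▸ Lagrange.eval_basis_self hi.injOn (Finset.mem_univ k)
    · exact Lagrange.eval_basis_of_ne (Ne.symm h) (Finset.mem_univ k)
  · rw [hf]
    exact Fintype.prod_dvd_of_coprime (pairwise_coprime_X_sub_C hi) fun k =>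
      dvd_iff_isRoot.2 (by rw [IsRoot.def, ← coe_aeval_eq_eval]; exact hz k)

theorem fb_dvd : algebraMap ℂ[X] (Localization.Away e.g) E.f ∣ algebraMap ℂ[X] _ (X - C e.e) := by
  rw [e.fac, map_mul]
  exact (IsLocalization.Away.algebraMap_isUnit e.g).mul_right_dvd.2 dvd_rfl

/-- The branch point at infinity. -/
def evb : Localization.Away e.g →ₐ[ℂ] ℂ :=
  IsLocalization.liftAlgHom (M := Submonoid.powers e.g) (f := aeval e.e) (by
    rintro ⟨_, n, rfl⟩
    simp only [map_pow]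
    refine (IsUnit.mk0 _ fun h => e.d_ne ?_).pow n
    simp only [Rt.g, map_add, map_mul, map_pow, aeval_X, aeval_C, Algebra.algebraMap_self,
      RingHom.id_apply] at h
    rw [Rt.d]
    linear_combination h)

theorem evb_of (p : ℂ[X]) : evb e (algebraMap ℂ[X] _ p) = aeval e.e p := by
  simp [evb]

/-- The branch point at infinity. -/
def zb : Zs (algebraMap ℂ[X] (Localization.Away e.g) E.f) Unit where
  χ _ := evb e
  ε _ := 1
  χ_f _ := by rw [evb_of, e.fac]; simp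
  χ_ε _ _ := map_one _
  dvd z hz := by
    obtain ⟨⟨p, s⟩, h⟩ := IsLocalization.surj (Submonoid.powers e.g) z
    have h1 : aeval e.e p = 0 := by rw [← evb_of, ← h, map_mul, hz (), zero_mul]
    refine (IsLocalization.map_units (Localization.Away e.g) s).dvd_mul_right.1 ?_
    rw [h]
    exact (fb_dvd e).trans (map_dvd _ (dvd_iff_isRoot.2
      (by rw [IsRoot.def, ← coe_aeval_eq_eval]; exact h1)))

/-- No branch point lies in the intersection. -/
def zn (E : Ell) : Zs (E.ka E.f) Empty where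
  χ k := k.elim
  ε k := k.elim
  χ_f k := k.elim
  χ_ε k := k.elim
  dvd _ _ := E.f_unit.dvd

/-- The branch points on the charts. -/
def K4 : Ix → Type
  | .a => Fin 3
  | .b => Unit
  | .n => Empty

instance fK4 : ∀ i, Fintype (K4 i)
  | .a => inferInstanceAs (Fintype (Fin 3))
  | .b => inferInstanceAs (Fintype Unit)
  | .n => inferInstanceAs (Fintype Empty)

instance dK4 : ∀ i, DecidableEq (K4 i)
  | .a => inferInstanceAs (DecidableEq (Fin 3))
  | .b => inferInstanceAs (DecidableEq Unit)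
  | .n => inferInstanceAs (DecidableEq Empty)

/-- The branch points on the charts. -/
def zs : ∀ i, Zs ((D1 e).f i) (K4 i)
  | .a => (ex_za E).some
  | .b => zb e
  | .n => zn E

/-- There are four branch points. -/
def e4 : Bool × Bool ≃ Σ i, K4 i where
  toFun
    | (false, false) => ⟨.a, (0 : Fin 3)⟩
    | (false, true) => ⟨.a, (1 : Fin 3)⟩
    | (true, false) => ⟨.a, (2 : Fin 3)⟩
    | (true, true) => ⟨.b, ()⟩
  invFun
    | ⟨.a, k⟩ => ![(false, false), (false, true), (true, false)] k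
    | ⟨.b, _⟩ => (true, true)
    | ⟨.n, k⟩ => Empty.elim k
  left_inv := by rintro ⟨_ | _, _ | _⟩ <;> rfl
  right_inv := by
    rintro ⟨_ | _ | _, k⟩
    · change Fin 3 at k
      fin_cases k <;> rfl
    · rfl
    · exact Empty.elim k

theorem ix_cases (i j : Ix) (α : i ⟶ j) : (∃ h : i = j, α = eqToHom h) ∨ IsEmpty (K4 j) := by
  rcases leOfHom α with rfl | rfl
  · exact Or.inl ⟨rfl, Subsingleton.elim _ _⟩
  · exact Or.inr (inferInstanceAs (IsEmpty Empty))

theorem away_n (i : Ix) (α : i ⟶ Ix.n) (h : i ≠ .n) :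
    ∃ σ, IsAway ((D1 e).κ α) σ ∧ (D1 e).f i ∣ σ := by
  cases i
  · exact ⟨_, (esv e).away_a, dvd_rfl⟩
  · exact ⟨_, (esv e).away_b, fb_dvd e⟩
  · exact absurd rfl h

/-- **Modules over the branch points.** -/
theorem v4_gen {sm : ∀ i, Algebra.Smooth ℂ ((D1 e).C i)} {Q : DD Ix}
    (b : Base Q (rdOf (D1 e) sm)) (hs : ∀ i, Function.Surjective (b.ι i))
    (hk : ∀ i z, b.ι i z = 0 ↔ (D1 e).f i ∣ z) : EQV (wc b) WD.v4 := by
  let S : ∀ i, Spl (Q.A i) (K4 i) := fun i => (zs e i).spl (b.ι i) (hs i) (hk i) (b.gr i)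
  refine (wfull_all (wm Q) fun M i j α => ?_).trans ((eqv_pts S ix_cases).trans (wpi_v4 e4))
  by_cases h : ∃ h : i = j, α = eqToHom h
  · obtain ⟨rfl, rfl⟩ := h
    have h1 : ∀ z, (D1 e).κ (eqToHom rfl) z = z := (D1 e).κ_id i
    have h2 : ∀ x, (DM.ρ M (eqToHom rfl)).f x = x := DM.ρ_id M i
    exact (db_bij ⟨fun z w h => (h1 z).symm.trans (h.trans (h1 w)), fun z => ⟨z, h1 z⟩⟩
      (b.sl M _)).2 (qis_of_inv _ (GD.Hom.id _) h2 h2)
  · rcases leOfHom α with rfl | rfl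
    · exact absurd ⟨rfl, Subsingleton.elim _ _⟩ h
    · obtain ⟨σ, h1, h2⟩ := away_n e i α fun h' => h ⟨h', Subsingleton.elim _ _⟩
      refine db_zero h1 (b.sl M α) (fun x => ?_) (sub_M S ix_cases M α h)
      exact (congrArg ((DM.M M i).act · x) ((hk i σ).2 h2)).trans
        (LinearMap.congr_fun (map_zero (DM.M M i).act) x)

section

variable {I : Type} [SmallCategory I] (D : CD I)

/-- The quotient. -/
abbrev QR (i : I) : Type := D.C i ⧸ Ideal.span {D.f i}

/-- The projection. -/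
def qmk (i : I) : D.C i →ₐ[ℂ] QR D i := Ideal.Quotient.mkₐ ℂ _

theorem qmk_surj (i : I) : Function.Surjective (qmk D i) := Ideal.Quotient.mk_surjective

theorem qmk_eq (i : I) (z : D.C i) : qmk D i z = 0 ↔ D.f i ∣ z :=
  Ideal.Quotient.eq_zero_iff_mem.trans Ideal.mem_span_singleton

/-- The transition maps. -/
def qτ {i j : I} (α : i ⟶ j) : QR D i →ₐ[ℂ] QR D j :=
  Ideal.Quotient.liftₐ _ ((qmk D j).comp (D.κ α)) fun z hz => (qmk_eq D j _).2
    ((Dvd.intro_left _ (D.κ_f α).symm).trans (map_dvd _ (Ideal.mem_span_singleton.1 hz)))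

theorem qτ_mk {i j : I} (α : i ⟶ j) (z : D.C i) : qτ D α (qmk D i z) = qmk D j (D.κ α z) := rfl

theorem ofAlg_mem {R : Type} [Ring R] [Algebra ℂ R] (x : R) : x ∈ (DGA.ofAlg R).gr 0 := by
  change x ∈ (if (0 : ℤ) = 0 then ⊤ else ⊥ : Submodule ℂ R)
  rw [if_pos rfl]
  exact Submodule.mem_top

theorem ofAlg_zero {R : Type} [Ring R] [Algebra ℂ R] {m : ℤ} (h : m ≠ 0) {x : R}
    (hx : x ∈ (DGA.ofAlg R).gr m) : x = 0 := by
  change x ∈ (if m = 0 then ⊤ else ⊥ : Submodule ℂ R) at hx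
  rwa [if_neg h, Submodule.mem_bot] at hx

/-- A homomorphism of algebras, in degree `0`. -/
def ofAlgH {R R' : Type} [Ring R] [Algebra ℂ R] [Ring R'] [Algebra ℂ R'] (φ : R →ₐ[ℂ] R') :
    AHom (DGA.ofAlg R) (DGA.ofAlg R') :=
  ⟨φ, fun _ => map_zero φ, fun m a ha => by
    by_cases h : m = 0
    · exact h ▸ ofAlg_mem (R := R') _
    · have h1 : φ a = 0 := (congrArg φ (ofAlg_zero (R := R) h ha)).trans (map_zero φ)
      exact (congrArg (· ∈ (DGA.ofAlg R').gr m) h1).mpr (zero_mem _)⟩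

/-- The diagram of the algebras `C / f`. -/
def QD : DD I where
  A i := DGA.ofAlg (QR D i)
  τ α := ofAlgH (qτ D α)
  τ_id i a := by
    obtain ⟨z, rfl⟩ := qmk_surj D i a
    exact congrArg (qmk D i) (D.κ_id i z)
  τ_comp {i j k} α β a := by
    obtain ⟨z, rfl⟩ := qmk_surj D i a
    exact congrArg (qmk D k) (D.κ_comp α β z)

/-- The base rings. -/
def qb (sm : ∀ i, Algebra.Smooth ℂ (D.C i)) : Base (QD D) (rdOf D sm) where
  ι := qmk D
  gr i _ := ofAlg_mem (R := QR D i) _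
  d _ _ := rfl
  τ_ι _ _ := rfl

end

/-- **Modules over the branch points.** -/
theorem v4 (sm : ∀ i, Algebra.Smooth ℂ ((D1 e).C i)) : EQV (wc (qb (D1 e) sm)) WD.v4 :=
  v4_gen e _ (qmk_surj (D1 e)) (qmk_eq (D1 e))

end

end Vale.Agent.P286EP
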